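import Vale.Agent.P011NF.Spr

/-!
The groups of type `²E₆` with trivial Tits class in the new letters.
-/

open Module

namespace Vale.Agent.P011.NE

open Vale.Agent.P011.MPQ Vale.Agent.P011.D4 Vale.Agent.P011.E6 Vale.Agent.P011.E6H
open Vale.Agent.P011.H900 Vale.Agent.P011.NM

/-- **Outer groups with trivial Tits class**, any octonion algebra. -/
theorem e1n_of (H : E6.NF.MeetG) {F : Type} [Field F] [NumberField F] {s : F → F} {a b c : F}
    {g : Fin 3 → F} (hs : Aut 2 s) (hd : s a = a ∧ s b = b ∧ s c = c) (hg : ∀ i, s (g i) = g i)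
    (ha : ∀ x : Al a b, her c s g x x = 0 → x = 0) :
    OnlyC (grp fun f : Al a b → Al a b => Cub c f ∧ Her c s g f) := by
  have hA : IsA s := hs.isA two_ne_zero
  obtain ⟨k, _, _, _, hfin, hgal, hfix, haut, hcl⟩ := exists_base [s] (by simpa using hA)
  obtain ⟨ha0, hb0, hc0⟩ := Dvn.ne (l := []) (m := [s]) (a := a) (b := b) (c := c)
    ⟨by simp, fun x h1 h2 => congrFun (congrArg Prod.snd (ha (0, ![x, 0, 0]) (by
      have h0 : ap s (0 : Oc a b) = 0 := by simp only [ap, Prod.fst_zero, Prod.snd_zero,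
        QuaternionAlgebra.re_zero, QuaternionAlgebra.imI_zero, QuaternionAlgebra.imJ_zero,
        QuaternionAlgebra.imK_zero, hA.zero]; rfl
      rw [H900.her, Fin.sum_univ_three]
      simp only [Matrix.cons_val, h1 s (by simp), h2, h0]
      simp [om, re, oc]))) 0⟩ (by simpa using hA)
  have hg0 := g_ne hA ha
  obtain ⟨a, rfl⟩ := unit_of hfix (by simpa using hd.1) ha0
  obtain ⟨b, rfl⟩ := unit_of hfix (by simpa using hd.2.1) hb0
  obtain ⟨c, rfl⟩ := unit_of hfix (by simpa using hd.2.2) hc0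
  have hg1 : ∀ i, ∃ u : kˣ, ((up F u : Fˣ) : F) = g i := fun i =>
    unit_of hfix (by simpa using hg i) (hg0 i)
  choose g' hg' using hg1
  obtain rfl : (fun i => ((upG F g' i : Fˣ) : F)) = g := funext hg'
  obtain ⟨σ, rfl⟩ := haut s (by simp)
  have h2 : finrank k F = 2 := rank2 hcl hs.exists_ne hs.two
  refine onlyC_equiv (gEquiv (aeL a b c) _ _ (her_iff σ (upG F g'))) ?_
  rw [gp_eq]
  refine onlyC_equiv gpE.symm (E6.NF.ge_only H h2 (ne_one hs.exists_ne) fun x hx => ?_)
  obtain ⟨x, rfl⟩ := (aeL a b c).surjective x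
  rw [ha x ((her_eq σ _ x x).trans hx)]
  rfl

end Vale.Agent.P011.NE
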