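import Vale.Agent.P011ND.E6m
import Vale.Agent.P011NF.Brg

/-!
Groups of type `²E₆` with trivial Tits class: a noncentral normal subgroup contains the
automorphisms of the octonion algebra.
-/

open Matrix

namespace Vale.Agent.P011NF

open Vale.Agent.P011 Vale.Agent.P011.MPQ Vale.Agent.P011.D4 Vale.Agent.P011.D4.Oct
open Vale.Agent.P011.E6 Vale.Agent.P011.E6.Alb Vale.Agent.P011.E6O Vale.Agent.P011.H500.Rl
open Vale.Agent.P011.H327.Star hiding star
open Vale.Agent.P011.E6W.H964 (Xm Sy Gm isUn_Xm)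
open Vale.Agent.P011.E6X.H493 (her_add_left her_smul_left)
open Vale.Agent.P011.E6O.H408 (sp map_sp)
open Vale.Agent.P011.E6O.Ani (her_sp)
open Vale.Agent.P011ND hiding her_nd sp_iff cv_DD cv_yy li_yy yy

variable {k E : Type} [Field k] [Field E] [Algebra k E] {σ : E ≃ₐ[k] E} {g : Fin 3 → Eˣ}
  {a b c : kˣ} {θ : E}

variable (σ g a b c) in
/-- The group. -/
def GH : Subgroup (AlbL E a b c ≃ₗ[E] AlbL E a b c) where
  carrier := {φ | (∀ x, cub (φ x) = cub x) ∧ ∀ x y, her σ g (φ x) (φ y) = her σ g x y}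
  mul_mem' h h' := ⟨fun x => (h.1 _).trans (h'.1 x), fun x y => (h.2 _ _).trans (h'.2 x y)⟩
  one_mem' := ⟨fun _ => rfl, fun _ _ => rfl⟩
  inv_mem' {φ} h := ⟨fun x => (h.1 _).symm.trans (congrArg cub (φ.apply_symm_apply x)), fun x y =>
    (h.2 _ _).symm.trans (congrArg₂ (her σ g) (φ.apply_symm_apply x) (φ.apply_symm_apply y))⟩

variable (σ g) in
/-- The Lie algebra. -/
def LiG (X : Module.End E (AlbL E a b c)) : Prop :=
  Dr X ∧ ∀ x y, her σ g (X x) y + her σ g x (X y) = 0

variable (σ g) in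
/-- The direction of a rational curve. -/
def CvG (Y : Module.End E (AlbL E a b c)) : Prop :=
  ∃ Z : Module.End E (AlbL E a b c), ∀ t : k,
    IsUnit (1 - algebraMap k E t • Y + (algebraMap k E t * algebraMap k E t) • Z) →
      ∃ φ ∈ GH σ g a b c, φ.toLinearMap *
        (1 - algebraMap k E t • Y + (algebraMap k E t * algebraMap k E t) • Z) =
          1 + algebraMap k E t • Y + (algebraMap k E t * algebraMap k E t) • Z

variable (σ g) in
/-- A sum of root operators. -/
def yy (e : Fin 3 → E) (q : OctL E a b c) : Module.End E (AlbL E a b c) :=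
  six (e 1 • q) (e 2 • q) (e 0 • q) ((g 1 / g 2 * σ (e 1)) • q) ((g 2 / g 0 * σ (e 2)) • q)
    ((g 0 / g 1 * σ (e 0)) • q)

theorem LiG.add {X Y : Module.End E (AlbL E a b c)} (hX : LiG σ g X) (hY : LiG σ g Y) :
    LiG σ g (X + Y) := by
  refine ⟨hX.1.add hY.1, fun x y => ?_⟩
  · simp only [LinearMap.add_apply, her_add_left, her_add_right]
    linear_combination hX.2 x y + hY.2 x y

theorem LiG.smul {X : Module.End E (AlbL E a b c)} (hX : LiG σ g X) (t : k) :
    LiG σ g (algebraMap k E t • X) := by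
  refine ⟨hX.1.smul _, fun x y => ?_⟩
  · simp only [LinearMap.smul_apply, her_smul_left, her_smul_right, AlgEquiv.commutes]
    linear_combination algebraMap k E t * hX.2 x y

theorem CvG.smul {Y : Module.End E (AlbL E a b c)} (hY : CvG σ g Y) (s : k) :
    CvG σ g (algebraMap k E s • Y) := by
  obtain ⟨Z, h2⟩ := hY
  refine ⟨(algebraMap k E s * algebraMap k E s) • Z, fun t => ?_⟩
  have := h2 (t * s)
  rwa [map_mul, mul_smul _ _ Y, mul_mul_mul_comm, mul_smul _ _ Z] at this

variable [NumberField E]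

theorem LiG.br {X Y : Module.End E (AlbL E a b c)} (hX : LiG σ g X) (hY : LiG σ g Y) :
    LiG σ g (X * Y - Y * X) := by
  have h : X * Y - Y * X = X * Y + (-1 : E) • (Y * X) := by module
  refine ⟨hX.1.brk hY.1, fun x y => ?_⟩
  · simp only [h, LinearMap.add_apply, LinearMap.smul_apply, Module.End.mul_apply, her_add_left,
      her_add_right, her_smul_left, her_smul_right, map_neg, map_one]
    linear_combination hX.2 (Y x) y - hY.2 (X x) y + hX.2 x (Y y) - hY.2 x (X y)

theorem exists_actH {m : (E6I.MQ E a b)ˣ} (hu : IsUn σ g 1 m.1)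
    (hn : nu m.1 = 1) : ∃ φ ∈ GH σ g a b c, ∀ x, φ x = Alb.act m 1 x := by
  refine ⟨H64.actL two_ne_zero m 1, ⟨fun x => ?_, fun x y => ?_⟩, fun x => rfl⟩
  · rw [H64.actL_apply, Units.val_one, cub_actG two_ne_zero m (by rw [nrd_one, hn]), hn, one_mul]
  · rw [H64.actL_apply, H64.actL_apply, Units.val_one, her_act one_ne_zero hu
      (by rw [qmap_one, star_one, one_mul, one_pow]; rfl), one_pow, one_mul]

theorem cv_DD {y : Matrix (Fin 3) (Fin 3) E} (hs : Sy σ g y) :
    CvG σ g (DD y : Module.End E (AlbL E a b c)) := by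
  refine ⟨ZZ y, fun t ht => ?_⟩
  have e := cay_act (a := up E a) (b := up E b) (c := up E c) y (-algebraMap k E t)
  simp only [neg_smul, neg_neg, neg_mul_neg, ← sub_eq_add_neg] at e
  have hd := det_ne fun v hv => ((Module.End.isUnit_iff _).1 ht).1 (by rw [e, hv, map_zero])
  have hb : σ ((up E b : Eˣ) : E) = (up E b : Eˣ) := σ.commutes _
  have hs' := Sy_smul (σ.commutes t) hs
  obtain ⟨φ, h1, h2⟩ := exists_actH (c := c) (m := CU (up E a) (up E b) _ hd) (isUn_Xm
    (Sy_xc hb hd hs') (Sy_yc hb hd hs') (cc_comm hd) (cc_one hd)) (nu_cay two_ne_zero hd)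
  refine ⟨φ, h1, LinearMap.ext fun v => ?_⟩
  rw [Module.End.mul_apply, e, cay_act, LinearEquiv.coe_coe, h2, act_eq, actM_mul]
  exact congrArg₂ (actM · · v) (cay_eq hd).1 (cay_eq hd).2

theorem CvG.trip {a' b' c' : kˣ} {i j l : Oct a b c} (T : Trip a' b' c' i j l)
    {Y : Module.End E (AlbL E a' b' c')} (hY : CvG σ g Y) :
    CvG σ g ((tripA E T).conjAlgEquiv E Y) := by
  set C := (tripA E T).conjAlgEquiv E with hC
  obtain ⟨Z, h2⟩ := hY
  refine ⟨C Z, fun t ht => ?_⟩
  have e1 : ∀ s : E, 1 - s • C Y + (s * s) • C Z = C (1 - s • Y + (s * s) • Z) := fun s => by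
    rw [map_add, map_sub, map_one, map_smul, map_smul]
  rw [e1] at ht ⊢
  obtain ⟨φ, g1, g3⟩ := h2 t (by simpa using ht.map C.symm)
  have h3 := (tripA E T).apply_symm_apply
  refine ⟨((tripA E T).symm.trans φ).trans (tripA E T), ⟨fun x => ?_, fun x y => ?_⟩,
    (map_mul C φ.toLinearMap _).symm.trans ?_⟩
  · exact (E6X.H493.tripA_cub T _).trans ((g1.1 _).trans
      ((E6X.H493.tripA_cub T _).symm.trans (congrArg cub (h3 x))))
  · exact (E6X.H493.tripA_her T _ _).trans ((g1.2 _ _).trans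
      ((E6X.H493.tripA_her T _ _).symm.trans (congrArg₂ (her σ g) (h3 x) (h3 y))))
  rw [g3, map_add, map_add, map_one, map_smul, map_smul]

variable [NumberField k] (hσ : ∀ x, σ (σ x) = x) (hg : ∀ i, σ (g i) = g i) (hθ : σ θ = -θ)
  (h0 : θ ≠ 0)  (hfix : ∀ t, σ t = t → ∃ s, algebraMap k E s = t)

include hσ

omit [NumberField k] [NumberField E] in
theorem her_nd {y : AlbL E a b c} [NeZero (2 : E)] :
    ((∀ x, her σ g y x = 0) → y = 0) ∧ ((∀ x, her σ g x y = 0) → y = 0) := by
  refine ⟨fun h => H408.wt_inj (g := g) ?_, fun h => H408.amap_inj hσ (H408.wt_inj (g := g) ?_)⟩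
  · rw [wt_zero]
    exact eq_zero_of_tf fun z => by rw [← h (amap σ z), her, amap_amap σ hσ]
  · rw [amap_zero, wt_zero]
    exact eq_zero_of_tf fun z => by rw [← h z, H408.her_eq, tf_comm]

include hg

omit [NumberField k] in
theorem cv_yy (e : Fin 3 → E) {m : Fin 8} (hm : m ≠ 0) :
    CvG σ g (yy σ g e (H24.ob m : OctL E a b c)) := by
  obtain ⟨a', b', c', i, j, l, T, hj⟩ := exists_trip_ob (F := k) (a := a) (b := b) (c := c) m hm
  have h := CvG.trip T (cv_DD (σ := σ) (g := g) (y := !![0, e 0, g 2 / g 0 * σ (e 2);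
    g 0 / g 1 * σ (e 0), 0, e 1; e 2, g 1 / g 2 * σ (e 1), 0]) ?_)
  · convert h using 1
    have h1 : tripO E T gj = H24.ob m := by
      rw [tripO_apply, ← H24.oup_ob, ← hj]
      simp [emb, qemb, gj]
    rw [yy, ← h1, tripA]
    simp only [← map_smul]
    rw [← six_mapE (tripO_mul T)]
    congr 1
    refine (six_smul ![_, _, _, _, _, _] _ _ _ _ _ _).trans ?_
    simp only [Fin.sum_univ_six, ← P1_eq, ← P2_eq, ← P3_eq, ← M1_eq, ← M2_eq, ← M3_eq, ← DD_P1,
      ← DD_P2, ← DD_P3, ← DD_M1, ← DD_M2, ← DD_M3]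
    simp only [Matrix.cons_val, ← DD_smul, ← DD_add]
    congr 1
    ext i j
    fin_cases i <;> fin_cases j <;> simp
  · ext i j
    fin_cases i <;> fin_cases j <;> simp [Gm, hσ, hg] <;> field_simp

omit [NumberField k] [NumberField E] in
theorem li_yy (e : Fin 3 → E) {q : OctL E a b c}
    (h1 : star q = -q) (h3 : omap σ q = q) :
    LiG σ g (yy σ g e q) := by
  refine ⟨dr_six _ _ _ _ _ _, fun x y => ?_⟩
  · have k : ∀ v, σ (bil q v) = bil q (omap σ v) := fun v => by rw [← bil_om, h3]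
    have k1 : ∀ u v : OctL E a b c, bil (star (q * u)) v = -bil u (q * star v) := fun u v => by
      rw [bil_star_left, bil_mul_left, h1, neg_mul, bil_neg_right]
    have k2 : ∀ u v : OctL E a b c, bil u (star (q * v)) = -bil (q * star u) v := fun u v => by
      rw [bil_comm, k1, bil_comm]
    simp only [her, tf, wt, amap, yy, six_apply, star_smul_oct, h1, bil_smul_left, bil_smul_right,
      bil_neg_left, bil_neg_right, bil_add_left, bil_add_right, map_add, map_mul, map_neg, k,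
      omap_add, omap_smul, omap_star, omap_mul, h3, smul_mul_oct, smul_neg, omap_neg, map_div₀,
      hσ, hg, k1, k2, bil_comm _ q, mul_smul_oct]
    field_simp
    ring

omit [NumberField k] in
include hθ h0 in
theorem genG {N : Submodule E (Module.End E (AlbL E a b c))} (hB : Br N)
    (hN : ∀ Y, LiG σ g Y → CvG σ g Y → Y ∈ N) {X : Module.End E (AlbL E a b c)}
    (hX : Dr X) : X ∈ N := by
  have h1 : 2 * θ ≠ 0 := mul_ne_zero two_ne_zero h0
  have key : ∀ m : Fin 8, m ≠ 0 → Has N (H24.ob m) := fun m hm => by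
    have k0 := fun e => hN _ (li_yy hσ hg e (q := H24.ob m)
      (star_neg_of_pure (by fin_cases m <;> simp [bil_eq, H24.ob] at hm ⊢))
      (by rw [← H24.oup_ob, omap_oup])) (cv_yy hσ hg e hm)
    generalize (H24.ob m : OctL E a b c) = q at k0
    have k1 := fun e => (six_smul ![_, _, _, _, _, _] q q q q q q).subst
      (motive := fun Y => Y ∈ N) (k0 e)
    simp only [Fin.sum_univ_six, Matrix.cons_val] at k1
    have a1 := fun i => add_mem (N.smul_mem θ (k1 (Pi.single i 1))) (k1 (Pi.single i θ))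
    have a2 := fun i => sub_mem (N.smul_mem θ (k1 (Pi.single i 1))) (k1 (Pi.single i θ))
    refine ⟨(N.smul_mem_iff h1).1 ?_, (N.smul_mem_iff h1).1 ?_, (N.smul_mem_iff h1).1 ?_,
      (N.smul_mem_iff (s := 2 * θ * (g 1 / g 2)) (by simp [h0])).1 ?_,
      (N.smul_mem_iff (s := 2 * θ * (g 2 / g 0)) (by simp [h0])).1 ?_,
      (N.smul_mem_iff (s := 2 * θ * (g 0 / g 1)) (by simp [h0])).1 ?_⟩
    iterate 3 first | (convert a1 1 using 1; simp [hθ]; module) |
      (convert a1 2 using 1; simp [hθ]; module) | (convert a1 0 using 1; simp [hθ]; module)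
    iterate 3 first | (convert a2 1 using 1; simp [hθ]; module) |
      (convert a2 2 using 1; simp [hθ]; module) | (convert a2 0 using 1; simp [hθ]; module)
  refine star_main hB (fun q hq => ?_) hX
  have z := (key 1 (by decide)).lin (key 1 (by decide)) 0 0
  simp only [zero_smul, add_zero] at z
  rw [← H24.sum_oc q]
  refine Finset.sum_induction _ _ (fun u v hu hv => by simpa using hu.lin hv 1 1) z fun m _ => ?_
  by_cases hm : m = 0
  · have : H24.oc q 0 = 0 := by simpa [bil_eq, H24.oc] using hq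
    rwa [hm, this, zero_smul]
  · simpa using (key m hm).lin z _ 0

omit hg [NumberField k] in
include hfix in
theorem descG {W : AddSubgroup (Module.End E (AlbL E a b c))}
    (hW : ∀ w ∈ W, LiG σ g w) (hk : ∀ t : k, ∀ w ∈ W, algebraMap k E t • w ∈ W)
    {X : Module.End E (AlbL E a b c)} (hX : X ∈ Submodule.span E (W : Set _))
    (hL : LiG σ g X) : X ∈ W := by
  obtain ⟨n, e, w, h⟩ := Submodule.mem_span_set'.1 hX
  have l : ∀ i, LiG σ g (w i).1 := fun i => hW _ (w i).2
  have r2 : ∑ i, σ (e i) • (w i).1 = X := by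
    refine LinearMap.ext fun x => sub_eq_zero.1 ((her_nd hσ (g := g)).1 fun y => ?_)
    have h1 := hL.2 x y
    nth_rewrite 2 [← h] at h1
    rw [LinearMap.sum_apply] at h1 ⊢
    have h2 := map_sum (AddMonoidHom.mk' (her σ g x) (her_add_right x)) fun i => (e i • (w i).1) y
    have h3 := map_sum (AddMonoidHom.mk' (her σ g · y) (her_add_left · · y))
      fun i => (σ (e i) • (w i).1) x
    simp only [AddMonoidHom.mk'_apply, LinearMap.smul_apply, her_smul_left, her_smul_right]
      at h1 h2 h3 ⊢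
    rw [sub_eq_add_neg, ← neg_one_smul E, her_add_left, her_smul_left, h3,
      eq_neg_of_add_eq_zero_left h1, h2, mul_neg, neg_mul, one_mul, neg_neg,
      ← Finset.sum_add_distrib]
    exact Finset.sum_eq_zero fun i _ => by rw [← mul_add, (l i).2, mul_zero]
  choose t ht using fun i => hfix (2⁻¹ * (e i + σ (e i))) (by
    rw [map_mul, map_add, hσ, map_inv₀, map_ofNat, add_comm])
  convert sum_mem fun i (_ : i ∈ Finset.univ) => hk (t i) _ (w i).2
  simp only [ht, mul_smul, add_smul, ← Finset.smul_sum, Finset.sum_add_distrib, h, r2]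
  match_scalars
  norm_num

include hθ h0 hfix in
theorem irrG {W : AddSubgroup (Module.End E (AlbL E a b c))}
    (hW : ∀ Y, CvG σ g Y → ∀ X ∈ W, Y * X - X * Y ∈ W) {X0 : Module.End E (AlbL E a b c)}
    (h3 : X0 ∈ W) (h1 : LiG σ g X0) (h2 : X0 ≠ 0) {X : Module.End E (AlbL E a b c)}
    (hX : LiG σ g X) : X ∈ W := by
  set S : Set (Module.End E (AlbL E a b c)) := {Z | ∃ Y X, LiG σ g Y ∧ CvG σ g Y ∧
    X ∈ W ∧ LiG σ g X ∧ Z = Y * X - X * Y} with hS'
  have w1 : ∀ w ∈ AddSubgroup.closure S, w ∈ W ∧ LiG σ g w ∧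
      ∀ t : k, algebraMap k E t • w ∈ AddSubgroup.closure S := fun w hw => by
    induction hw using AddSubgroup.closure_induction with
    | mem w hw =>
      obtain ⟨Y, Z, a0, a1, a2, a3, rfl⟩ := hw
      exact ⟨hW Y a1 Z a2, a0.br a3, fun t => AddSubgroup.subset_closure ⟨_, Z, a0.smul t,
        a1.smul t, a2, a3, by rw [smul_sub, smul_mul_assoc, mul_smul_comm]⟩⟩
    | zero => exact ⟨zero_mem _, by simpa using h1.smul 0, fun t => by simp⟩
    | add A B _ _ hA hB =>
      exact ⟨add_mem hA.1 hB.1, hA.2.1.add hB.2.1, fun t => by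
        rw [smul_add]; exact add_mem (hA.2.2 t) (hB.2.2 t)⟩
    | neg A _ hA => exact ⟨neg_mem hA.1, by simpa using hA.2.1.smul (-1), fun t => by
        rw [smul_neg]; exact neg_mem (hA.2.2 t)⟩
  have w2 := fun Z => genG hσ hg hθ h0 (X := Z) (br_nor (Submodule.span E (AddSubgroup.closure S :
      Set (Module.End E (AlbL E a b c))))) fun Y hY hY' Z hZ => by
    induction hZ using Submodule.span_induction with
    | mem Z hZ => exact Submodule.subset_span (AddSubgroup.subset_closure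
        ⟨Y, Z, hY, hY', (w1 Z hZ).1, (w1 Z hZ).2.1, rfl⟩)
    | zero => simp
    | add A B _ _ hA hB =>
      convert add_mem hA hB using 1
      noncomm_ring
    | smul t A _ hA =>
      rw [mul_smul_comm, smul_mul_assoc, ← smul_sub]
      exact Submodule.smul_mem _ _ hA
  obtain ⟨Y, y1, y2, y3⟩ : ∃ Y, LiG σ g Y ∧ CvG σ g Y ∧ Y * X0 - X0 * Y ≠ 0 := by
    by_contra hn
    push Not at hn
    exact h2 (dr_zero h1.1 fun Z => genG hσ hg hθ h0 (br_cen X0) fun Y hY hY' =>
      (sub_eq_zero.1 (hn Y hY hY')).symm)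
  exact (w1 X (descG hσ hfix (fun w hw => (w1 w hw).2.1) (fun t w hw => (w1 w hw).2.2 t)
    (dr_simple w2 (Submodule.subset_span (AddSubgroup.subset_closure
      ⟨Y, X0, y1, y2, h3, h1, rfl⟩)) (y1.br h1).1 y3 hX.1) hX)).1

omit [NumberField k]

theorem sp_iff {X : Module.End E (AlbL E a b c)}
    (h : ∀ x y, her σ g (X x) y + her σ g x (X y) = 0) :
    (∀ x y, X (sp σ g x y) = sp σ g (X x) y + sp σ g x (X y)) ↔ Dr X := by
  have k : ∀ x y z, her σ g (X (sp σ g x y) + (-1 : E) • (sp σ g (X x) y + sp σ g x (X y))) z =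
      -σ (tf (cross x y) (X z) + tf (cross y z) (X x) + tf (cross z x) (X y)) := fun x y z => by
    rw [her_add_left, her_smul_left, her_add_left, eq_neg_of_add_eq_zero_left (h _ _), her_sp hg,
      her_sp hg, her_sp hg, tf_cross (X x), tf_comm (X x), tf_cross_comm x (X y),
      cross_comm z, map_add, map_add]
    ring
  refine ⟨fun h1 x => ?_, fun h1 x y => ?_⟩
  · have h2 := k x x x
    rw [h1, neg_one_smul, add_neg_cancel, her, wt_zero, tf_zero_left, Alb.cross_self, tf_smul_left,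
      eq_comm, neg_eq_zero, map_eq_zero] at h2
    linear_combination (1 / 6 : E) * h2
  · rw [← sub_eq_zero, sub_eq_add_neg, ← neg_one_smul E]
    exact (her_nd hσ).1 fun z => by rw [k, h1.pol, map_zero, neg_zero]

variable [Module ℚ (AlbL E a b c)]

omit hσ hg

variable (σ g a b c) in
/-- The tensors. -/
noncomputable def dvG : Dv ℚ (AlbL E a b c) (Fin (Module.finrank ℚ E)) where
  A n := rs E _ (Module.finBasis ℚ E n • 1)
  B := bi (fun x y => Algebra.trace ℚ E (her σ g x y)) (fun x y z => by rw [her_add_left, map_add])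
    fun x y z => by rw [her_add_right, map_add]
  μ := bi (sp σ g) (fun x y z => by rw [sp, sp, sp, cross_add_left, wt_add, amap_add])
    fun x y z => by rw [sp, sp, sp, cross_add_right, wt_add, amap_add]

theorem dvG_B (x y : AlbL E a b c) :
    (dvG σ g a b c).B x y = Algebra.trace ℚ E (her σ g x y) := rfl

theorem dvG_mu (x y : AlbL E a b c) : (dvG σ g a b c).μ x y = sp σ g x y := rfl

theorem dvG_e (n : Fin (Module.finrank ℚ E)) (x : AlbL E a b c) :
    (dvG σ g a b c).A n x = Module.finBasis ℚ E n • x := rfl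

theorem comm_G {X : Module.End ℚ (AlbL E a b c)} :
    (∀ n x, X ((dvG σ g a b c).A n x) = (dvG σ g a b c).A n (X x)) ↔ ∃ f, rs E _ f = X :=
  ⟨exists_rs, by rintro ⟨f, rfl⟩ n x; exact f.map_smul _ x⟩

theorem ani_G (hA : ∀ v : AlbL E a b c, her σ g v v = 0 → v = 0) : (dvG σ g a b c).Ani := by
  refine ⟨_, Set.finite_range fun j => (.app j .var, .var), fun v hv => ?_⟩
  by_contra hn
  push Not at hn
  refine hv (hA v (tr_zero fun n => ?_))
  simpa only [Dv.tm, dvG_B, dvG_e, her_smul_left] using hn _ ⟨n, rfl⟩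

include hσ

theorem nd_G (y : AlbL E a b c) (hy : ∀ x, (dvG σ g a b c).B x y = 0) : y = 0 :=
  (her_nd hσ (g := g)).2 fun x => tr_zero fun n => by rw [← her_smul_left, ← dvG_B, hy]

theorem stab_G {φ : AlbL E a b c ≃ₗ[E] AlbL E a b c} (h : φ ∈ GH σ g a b c) :
    (dvG σ g a b c).Stab (rs E _ φ.toLinearMap) := by
  refine ⟨comm_G.2 ⟨_, rfl⟩, fun x y => ?_, map_sp hσ h.1 h.2⟩
  rw [dvG_B, dvG_B]
  exact congrArg _ (h.2 x y)

include hg

omit hσ in
theorem surj_G {X : Module.End ℚ (AlbL E a b c)} (h1 : Function.Bijective X)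
    (h2 : (dvG σ g a b c).Stab X) :
    ∃ φ ∈ GH σ g a b c, rs E _ φ.toLinearMap = X := by
  obtain ⟨f, rfl⟩ := comm_G.1 h2.1
  have h4 : ∀ x y, her σ g (f x) (f y) = her σ g x y := fun x y => sub_eq_zero.1 (tr_zero fun n => by
    have := h2.2.1 (Module.finBasis ℚ E n • x) y
    rw [dvG_B, dvG_B, rs_apply, rs_apply, map_smul, her_smul_left, her_smul_left] at this
    rw [mul_sub, map_sub, this, sub_self])
  refine ⟨LinearEquiv.ofBijective f h1, ⟨fun x => ?_, h4⟩, rfl⟩
  have h5 := h4 (sp σ g x x) x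
  rw [show f (sp σ g x x) = sp σ g (f x) (f x) from h2.2.2 x x, her_sp hg, her_sp hg,
    σ.injective.eq_iff, Alb.cross_self, Alb.cross_self, tf_smul_left, tf_smul_left, tf_adj_self,
    tf_adj_self] at h5
  exact mul_left_cancel₀ three_ne_zero (mul_left_cancel₀ two_ne_zero h5)

theorem lie_G {X : Module.End ℚ (AlbL E a b c)} :
    (dvG σ g a b c).Lie X ↔ ∃ f, rs E _ f = X ∧ LiG σ g f := by
  constructor
  · rintro ⟨h1, h2, h3⟩
    obtain ⟨f, rfl⟩ := comm_G.1 h1
    have h5 : ∀ x y, her σ g (f x) y + her σ g x (f y) = 0 := fun x y => tr_zero fun n => by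
      have := h2 (Module.finBasis ℚ E n • x) y
      rwa [dvG_B, dvG_B, rs_apply, rs_apply, map_smul, her_smul_left, her_smul_left, ← map_add,
        ← mul_add] at this
    exact ⟨f, rfl, (sp_iff hσ hg h5).1 fun x y => by
      simpa only [dvG_mu, rs_apply] using h3 x y, h5⟩
  · rintro ⟨f, rfl, h1⟩
    refine ⟨comm_G.2 ⟨f, rfl⟩, fun x y => ?_, fun x y => ?_⟩
    · rw [dvG_B, dvG_B, ← map_add, rs_apply, rs_apply, h1.2, map_zero]
    · simp only [dvG_mu, rs_apply, (sp_iff hσ hg h1.2).2 h1.1 x y]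

include hθ h0 hfix

theorem irr_G [NumberField k] {r : GH σ g a b c →* Module.End ℚ (AlbL E a b c)}
    (hr : ∀ φ, r φ = rs E _ φ.1.toLinearMap) : IrrV (dvG σ g a b c) r := by
  intro W _ h2 h3 X hX
  have hc : ∀ t : ℚ, algebraMap k E (t : k) = (t : E) := fun t => map_ratCast _ t
  obtain ⟨X, rfl, h8⟩ := (lie_G hσ hg).1 hX
  obtain ⟨X0, h4, h5, h6⟩ := h3
  obtain ⟨X0, rfl, h7⟩ := (lie_G hσ hg).1 h5
  refine irrG hσ hg hθ h0 hfix
    (W := W.toAddSubgroup.comap (rs E _).toAddMonoidHom) ?_ (X0 := X0) h4 h7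
    (fun h9 => h6 (by rw [h9, map_zero])) h8
  rintro Y ⟨Z, hZ⟩ X' hX'
  refine h2 (rs E _ Y) ⟨rs E _ Z, fun t ht => ?_⟩ (rs E _ X') hX'
  have e1 : 1 + t • rs E _ Y + (t * t) • rs E _ Z =
      rs E _ (1 + (t : E) • Y + ((t : E) * t) • Z) := by
    rw [map_add, map_add, map_one, ← Rat.cast_mul, rs_smul, rs_smul]
  have e2 : 1 - t • rs E _ Y + (t * t) • rs E _ Z =
      rs E _ (1 - (t : E) • Y + ((t : E) * t) • Z) := by
    rw [map_add, map_sub, map_one, ← Rat.cast_mul, rs_smul, rs_smul]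
  rw [e2] at ht
  have ht' := (Module.End.isUnit_iff _).1 ht
  obtain ⟨φ, g1, g3⟩ := hZ t (by
    rw [hc]
    exact (Module.End.isUnit_iff _).2 ht')
  rw [hc] at g3
  exact ⟨⟨φ, g1⟩, by rw [hr, e1, e2, ← map_mul, g3]⟩

omit hσ hg hθ h0 hfix [Module ℚ (AlbL E a b c)]

variable (σ g a b c) in
/-- The automorphisms of the octonion algebra, as elements of the group. -/
def autG [CharZero k] : AutC a b c →* GH σ g a b c where
  toFun f := ⟨(autO σ σ 1 g a b c f).1, (autO σ σ 1 g a b c f).2.1, (autO σ σ 1 g a b c f).2.2.2⟩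
  map_one' := Subtype.ext (congrArg Subtype.val (map_one (autO σ σ 1 g a b c)) :)
  map_mul' f f' := Subtype.ext (congrArg Subtype.val (map_mul (autO σ σ 1 g a b c) f f') :)

include hσ hg hθ h0 hfix in
theorem meetH [NumberField k] (hC : Division a b c)
    (hA : ∀ v : AlbL E a b c, her σ g v v = 0 → v = 0)
    (N : Subgroup (GH σ g a b c)) [hN : N.Normal] (h : ¬ N ≤ Subgroup.center _)
    (f : AutC a b c) : autG σ g a b c f ∈ N := by
  let _ : Module ℚ (AlbL E a b c) := Module.compHom _ (algebraMap ℚ E)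
  have hab := hC.aniso
  have : FiniteDimensional ℚ (AlbL E a b c) := Module.Finite.trans E _
  obtain ⟨r, hr⟩ : ∃ r : GH σ g a b c →* Module.End ℚ (AlbL E a b c),
      ∀ φ, r φ = rs E _ φ.1.toLinearMap :=
    ⟨⟨⟨fun φ => rs E _ φ.1.toLinearMap, rfl⟩, fun _ _ => rfl⟩, fun _ => rfl⟩
  have hy := li_yj (ρ := σ) (σ := σ) (lam := 1) (g := g) (c := c) hab
  obtain ⟨t0, ht0⟩ := exists_inf hab
  have hcay : ∀ t : ℚ, r (autG σ g a b c (long a b c (cj hab t))) * (1 - t • rs E _ yj) =
      1 + t • rs E _ yj := fun t => by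
    rw [hr, ← rs_smul, ← map_one (rs E _), ← map_sub, ← map_add, ← map_mul,
      ← map_ratCast (algebraMap k E)]
    exact congrArg _ (cay_yj (ρ := σ) (σ := σ) (lam := 1) (g := g) hab _)
  have M : MdV (dvG σ g a b c) r (rs E _ yj)
      (fun t => autG σ g a b c (long a b c (cj hab t))) (autG σ g a b c (tau a b c).1)
      (autG σ g a b c (long a b c (cj hab t0))) := by
    refine ⟨two_ne_zero, fun φ ψ e => ?_, fun φ => hr φ ▸ stab_G hσ φ.2, fun X h1 h2 => ?_,
      ani_G hA, nd_G hσ, irr_G hσ hg hθ h0 hfix hr, (lie_G hσ hg).2 ⟨_, rfl, hy.1, hy.2.2⟩, fun h9 => ?_, hcay,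
      by rw [← map_mul, ← Subgroup.coe_mul, tau_sq, OneMemClass.coe_one, map_one], ?_, ?_,
      fun Q hQ h1 => ?_⟩
    · rw [hr, hr] at e
      exact Subtype.ext (LinearEquiv.toLinearMap_injective (rs_inj e))
    · obtain ⟨φ, h3, h4⟩ := surj_G hg h1 h2
      exact ⟨⟨φ, h3⟩, (hr _).trans h4⟩
    · have := congrArg (fun z => z.x1.snd.imJ)
        (LinearMap.congr_fun h9 ⟨0, 0, 0, ⟨0, 1⟩, 0, 0⟩)
      simp [rs_apply, yj_apply] at this
    · rw [hr, ← map_mul, ← map_mul, ← map_neg]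
      exact congrArg _ (neg_yj (ρ := σ) (σ := σ) (lam := 1) (g := g))
    · rw [← map_inv, ← map_inv, ← map_mul, ← map_mul]
      exact congrArg _ (congrArg Subtype.val (tau_inv hab c t0))
    · obtain ⟨t, h2, h3⟩ := h1 _ _ hcay
      have h4 := top_of_long hC (hQ.comap (autG σ g a b c))
        (cj_nc hab (Rat.cast_ne_zero.2 h2)) h3
      exact ⟨h4.ge (Subgroup.mem_top _), h4.ge (Subgroup.mem_top _)⟩
  rcases M.main NT.hasPls_rat N with h1 | ⟨e, he, h1⟩
  · refine absurd (fun m hm => Subgroup.mem_center_iff.2 fun φ => ?_) h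
    obtain ⟨t, ht⟩ := dr_scalar (g := m.1.toLinearMap) fun X =>
      genG hσ hg hθ h0 (br_cen _) fun X hX _ => by
        have h2 := h1 m hm _ ((lie_G hσ hg).2 ⟨_, rfl, hX⟩)
        rw [hr, ← map_mul, ← map_mul] at h2
        exact rs_inj h2
    refine Subtype.ext (LinearEquiv.ext fun v => ?_)
    exact ((congrArg φ.1 (ht v)).trans (map_smul _ _ _)).trans (ht _).symm
  · rw [← map_pow, ← map_pow] at h1
    exact (top_of_long hC (hN.comap (autG σ g a b c)) (ht0 e he) h1).ge (Subgroup.mem_top f)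

theorem meetG : E6.NF.MeetG := by
  intro k K _ _ _ _ _ σ a b c g h2 hσ hC hA N hN h f
  obtain ⟨δ, hδ, hδ0⟩ := exists_delta8 h2 hσ
  exact meetH (g := upG K g) (sigma_sigma_su h2 σ) (fun _ => σ.commutes _) hδ hδ0
    (Five.exists_fix h2 hδ hδ0) hC hA N (hN := hN) h f

open Vale.Agent.P011.H900 Vale.Agent.P011.NM in
/-- **Outer groups with trivial Tits class.** -/
theorem e1n {F : Type} [Field F] [NumberField F] {s : F → F} {a b c : F} {g : Fin 3 → F}
    (hs : Aut 2 s) (hd : s a = a ∧ s b = b ∧ s c = c) (hg : ∀ i, s (g i) = g i)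
    (ha : ∀ x : Al a b, H900.her c s g x x = 0 → x = 0) :
    OnlyC (grp fun f : Al a b → Al a b => Cub c f ∧ Her c s g f) :=
  NE.e1n_of meetG hs hd hg ha

end Vale.Agent.P011NF
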