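import Vale.Agent.P011.E6.FixOne
import Vale.Agent.P011.E6.FixE
import Vale.Agent.P011.E6.Fix9
import Vale.Agent.P011.H500.Rl.Nu

/-!
Groups of type `²E₆` with trivial Tits class, without a condition on the octonion algebra over the
quadratic extension: a normal subgroup with all special unitary groups is everything.
-/

open Polynomial Matrix NumberField

namespace Vale.Agent.P011.E6.NF

open Vale.Agent.P011.MPQ Vale.Agent.P011.D4 Vale.Agent.P011.D4.Oct Vale.Agent.P011.E6.H64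
open Vale.Agent.P011.H500.Rl (nu_mulG cub_actG)

theorem herN_mulG {F : Type} [Field F] {a b : Fˣ} (h2 : (2 : F) ≠ 0)
    (M S : Matrix (Fin 3) (Fin 3) (Qt a b)) (hS : S.IsHermitian) :
    herN (M * S * Mᴴ) = nu M * herN S := by
  obtain ⟨α, hα⟩ := H500.Rl.exists_sqrtA a
  have h : ∀ S : Matrix (Fin 3) (Fin 3) (Qt a b), algebraMap F (AlgebraicClosure F) (herN S) =
      herN (S.map (qup (AlgebraicClosure F))) := fun S => by
    simp only [herN, map_sub, map_add, map_mul, map_ofNat, Matrix.map_apply, ← qup_mul, re_qup,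
      nrd_qup]
  apply (algebraMap F (AlgebraicClosure F)).injective
  rw [map_mul, h, h, ← H369.nu_up, H369.map_qup_mul, H369.map_qup_mul, H369.map_qup_star]
  refine E6O.H68.herN_mulS (E6O.H68.spq (H500.Rl.two_ne' h2) hα) (H500.Rl.two_ne' h2) _ _ ?_
  rw [Matrix.IsHermitian, ← H369.map_qup_star, hS.eq]

theorem nu_ne {F : Type} [Field F] {a b : Fˣ} (h2 : (2 : F) ≠ 0)
    (m : (Matrix (Fin 3) (Fin 3) (Qt a b))ˣ) : nu (m : Matrix (Fin 3) (Fin 3) (Qt a b)) ≠ 0 :=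
  left_ne_zero_of_mul_eq_one ((nu_mulG h2 _ _).symm.trans (by rw [units_mul_inv, H64.nu_one]))

theorem nu_unit {F : Type} [Field F] [NeZero (2 : F)] {a b : Fˣ} {g : Fin 3 → Fˣ}
    {m : (Matrix (Fin 3) (Fin 3) (Qt a b))ˣ}
    (h : (m : Matrix (Fin 3) (Fin 3) (Qt a b))ᴴ * dg a b g * (m : Matrix (Fin 3) (Fin 3) (Qt a b)) =
      dg a b g) : nu (m : Matrix (Fin 3) (Fin 3) (Qt a b)) = 1 := by
  have h1 := congrArg Alb.mat (H64.act_one (c := 1) two_ne_zero h 1)
  have h2 := herN_mulG two_ne_zero m _ (mat_isHermitian (Alb.one a b 1 g))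
  rw [← H64.mat_act two_ne_zero m 1, h1] at h2
  refine (mul_right_cancel₀ (b := herN (Alb.mat (Alb.one a b 1 g))) ?_ (by rwa [one_mul])).symm
  rw [← ofMV_dgi, mat_ofMV two_ne_zero (dgi_isHermitian _), ← cub_ofMV_zero (c := 1), ofMV_dgi,
    Alb.cub_one]
  exact inv_ne_zero (Alb.gam_ne _)

section act

variable {k K : Type} [Field k] [Field K] [Algebra k K] {a b c a' b' c' : kˣ}

theorem act_mem_GE (h2 : (2 : K) ≠ 0) {σ : K ≃ₐ[k] K}
    {g : Fin 3 → kˣ} {m : (Matrix (Fin 3) (Fin 3) (Qt (up K a) (up K b)))ˣ}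
    (hm : IsU σ g g (m : Matrix (Fin 3) (Fin 3) (Qt (up K a) (up K b))))
    (hn : nu (m : Matrix (Fin 3) (Fin 3) (Qt (up K a) (up K b))) = 1) :
    (actL h2 m 1 : AlbL K a b c ≃ₗ[K] AlbL K a b c) ∈ GE σ a b c g := by
  refine ⟨fun x => ?_, fun x y => ?_⟩
  · rw [actL_apply, Units.val_one, cub_actG h2 m (by rw [hn]; exact nrd_one), hn, one_mul]
  · rw [actL_apply, actL_apply, Units.val_one]
    exact herm_act h2 σ hm (r := 1) (by rw [qmap_one, star_one, mul_one]; rfl) (mul_one _) x y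

theorem isCoord_act' (h2 : (2 : K) ≠ 0) {σ : K ≃ₐ[k] K}
    {g g' : Fin 3 → kˣ} {m : (Matrix (Fin 3) (Fin 3) (Qt (up K a) (up K b)))ˣ}
    {κ : Qt (up K a) (up K b)}
    (hm : IsU σ g g' (m : Matrix (Fin 3) (Fin 3) (Qt (up K a) (up K b))))
    (hmσ : (m : Matrix (Fin 3) (Fin 3) (Qt (up K a) (up K b))).map (qmap σ) = m)
    (hκσ : qmap σ κ = κ)
    (hκ : nrd κ = nu (m : Matrix (Fin 3) (Fin 3) (Qt (up K a) (up K b))))
    (Ψ : AlbL K a b c ≃ₗ[K] AlbL K a b c) (h : ∀ x, Ψ x = Alb.act m κ x) : IsCoord σ g g' Ψ := by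
  have hu : umap σ m = m := Units.ext hmσ
  have hm' : (m : Matrix (Fin 3) (Fin 3) (Qt (up K a) (up K b)))ᴴ *
      dg (up K a) (up K b) (upG K g) * (m : Matrix (Fin 3) (Fin 3) (Qt (up K a) (up K b))) =
      dg (up K a) (up K b) (upG K g') := by
    have h3 := hm
    rw [IsU, hmσ] at h3
    exact h3
  have h1 : Alb.act m κ (Alb.one _ _ (up K c) (upG K g')) = Alb.one _ _ _ (upG K g) :=
    act_one h2 hm' κ
  refine ⟨⟨_, nu_ne h2 m, fun x => ?_⟩, fun x y => ?_, fun x => ?_, ?_⟩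
  · rw [h, cub_actG h2 m hκ]
  · rw [h, h]
    have h3 := cub_actG h2 m hκ (Alb.one _ _ (up K c) (upG K g'))
    rw [h1, cub_one_eq, cub_one_eq] at h3
    refine herm_act h2 σ hm (r := nrd κ) ?_ ?_ x y
    · rw [hκσ, star_mul_qt]
    · rw [hκ]
      have e0 : (upG K g 0 * upG K g 1 * upG K g 2 : K) ≠ 0 :=
        mul_ne_zero (mul_ne_zero (Units.ne_zero _) (Units.ne_zero _)) (Units.ne_zero _)
      have e1 : (upG K g' 0 * upG K g' 1 * upG K g' 2 : K) ≠ 0 :=
        mul_ne_zero (mul_ne_zero (Units.ne_zero _) (Units.ne_zero _)) (Units.ne_zero _)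
      field_simp at h3
      exact h3.symm
  · rw [h, h, H64.amap_act h2, hu, hκσ]
  · rw [h]
    exact h1

variable [NeZero (2 : K)] {σ : K ≃ₐ[k] K} {g g' : Fin 3 → kˣ}

theorem nu_upU {m : (Matrix (Fin 3) (Fin 3) (Qt a b))ˣ}
    (h : (m : Matrix (Fin 3) (Fin 3) (Qt a b))ᴴ * dg a b g * (m : Matrix (Fin 3) (Fin 3) (Qt a b)) =
      dg a b g) : nu (upU K m : Matrix (Fin 3) (Fin 3) (Qt (up K a) (up K b))) = 1 :=
  nu_unit (g := upG K g) (by
    rw [upU_val, ← map_qup_conjTranspose, ← map_qup_dg, ← map_mul_qup, ← map_mul_qup, h])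

theorem exists_actU (m : (Matrix (Fin 3) (Fin 3) (Qt (up K a) (up K b)))ˣ)
    (hm : IsU σ g g (m : Matrix (Fin 3) (Fin 3) (Qt (up K a) (up K b))))
    (hn : nu (m : Matrix (Fin 3) (Fin 3) (Qt (up K a) (up K b))) = 1) :
    ∃ φ ∈ GE σ a b c g, ∀ x, φ x = Alb.act m 1 x :=
  ⟨H64.actL two_ne_zero m 1, act_mem_GE two_ne_zero hm hn, fun _ => rfl⟩

theorem coord {ψ : AlbL K a' b' c' ≃ₗ[K] AlbL K a b c} (h : Reach σ g g' ψ) :
    IsCoord σ g g' ψ := by
  induction h with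
  | refl => exact IsCoord.refl
  | @trip a' b' c' g' Ψ h a₂ b₂ c₂ i j l ht Ψ₂ h₂ ih =>
    have e : Ψ₂ = (tripA K ht).trans Ψ := by
      apply LinearEquiv.ext
      intro x
      rw [h₂, LinearEquiv.trans_apply, tripA_apply]
    rw [e]
    exact ih.trans (isCoord_tripA σ ht)
  | @act a' b' c' g' Ψ h g₂ m κ hm hmσ hκσ hκ Ψ₂ h₂ ih =>
    have e : Ψ₂ = (Ψ₂.trans Ψ.symm).trans Ψ := by
      apply LinearEquiv.ext
      intro x
      rw [LinearEquiv.trans_apply, LinearEquiv.trans_apply, LinearEquiv.apply_symm_apply]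
    have h3 : IsCoord σ g' g₂ (Ψ₂.trans Ψ.symm) := by
      apply isCoord_act' two_ne_zero hm hmσ hκσ hκ
      intro x
      rw [LinearEquiv.trans_apply, h₂, LinearEquiv.symm_apply_apply]
    rw [e]
    exact ih.trans h3

omit [NeZero (2 : K)] in
theorem divi [NeZero (2 : k)] {ψ : AlbL K a' b' c' ≃ₗ[K] AlbL K a b c} (h : Reach σ g g' ψ)
    (hdiv : Division a b c) : Division a' b' c' := by
  induction h with
  | refl => exact hdiv
  | trip h ht Ψ₂ h₂ ih => exact (aniso_of_trip ih ht).2.2.2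
  | act h m κ hm hmσ hκσ hκ Ψ₂ h₂ ih => exact ih

omit [NeZero (2 : K)] in
theorem div_of [NeZero (2 : k)] (h : ∀ x : AlbL K a b c, herm σ g x x = 0 → x = 0) :
    Division a b c := fun x hx =>
  congrArg Alb.x1 (hanis_down h ⟨0, 0, 0, x, 0, 0⟩ (by
    simp [Alb.tf, Alb.wt, bil_smul_left, bil_self, hx]))

omit [NeZero (2 : K)] in
theorem anis_k (h : ∀ x : AlbL K a b c, herm σ g x x = 0 → x = 0) (v : Fin 3 → Qt a b)
    (hv : ∑ j, (g j : k) * nrd (v j) = 0) : v = 0 := by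
  have h1 := hanis_down h ⟨0, 0, 0, ⟨0, (g 0 : k) • v 0⟩, ⟨0, (g 1 : k) • v 1⟩,
    ⟨0, (g 2 : k) • v 2⟩⟩ (by
      rw [Fin.sum_univ_three] at hv
      simp only [Alb.tf, Alb.wt, bil_smul_left, bil_self, Oct.norm, nrd_smul', mul_zero]
      simp only [nrd, QuaternionAlgebra.re_zero, QuaternionAlgebra.imI_zero,
        QuaternionAlgebra.imJ_zero, QuaternionAlgebra.imK_zero] at hv ⊢
      linear_combination (-2 * (c : k) * g 0 * g 1 * g 2) * hv)
  funext i
  fin_cases i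
  · exact (smul_eq_zero.1 (congrArg (·.x1.snd) h1)).resolve_left (g 0).ne_zero
  · exact (smul_eq_zero.1 (congrArg (·.x2.snd) h1)).resolve_left (g 1).ne_zero
  · exact (smul_eq_zero.1 (congrArg (·.x3.snd) h1)).resolve_left (g 2).ne_zero

end act

open Alb

theorem lanczos_good {k K : Type} [Field k] [NumberField k] [Field K] [CharZero K] [Algebra k K]
    {σ : K ≃ₐ[k] K} {a b c : kˣ} (hdiv : Division a b c)
    {g : Fin 3 → kˣ} (hanis : ∀ x : Alb a b c, Alb.tf (Alb.wt g x) x = 0 → x = 0) (r : Alb a b c) :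
    ∃ (a' b' c' : kˣ) (g' : Fin 3 → kˣ) (ψ : AlbL K a' b' c' ≃ₗ[K] AlbL K a b c),
      Reach σ g g' ψ ∧ ψ Alb.e1 = Alb.e1 ∧ g' 0 = g 0 ∧
      (r.x2 = 0 → r.x3 = 0 → ψ Alb.e2 = Alb.e2 ∧ g' 1 = g 1) ∧
      (∀ φ : k →+* ℝ, φ a' < 0 → φ b' < 0 → Dfn φ a' b' c') ∧
      ∃ R : Matrix (Fin 3) (Fin 3) k, R.transpose = R ∧ ψ (aup K (Alb.ofF R)) = aup K r := by
  obtain ⟨a', b', c', g', ψ, h1, h2, h3, h4, R, h5, h6⟩ :=
    lanczos (K := K) (σ := σ) hdiv hanis r
  obtain ⟨a₂, b₂, c₂, i, j, l, ht, hgood⟩ := Lit.exists_good (divi h1 hdiv)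
  refine ⟨a₂, b₂, c₂, g', (tripA K ht).trans ψ, ?_, ?_, h3, fun hx hy => ⟨?_, (h4 hx hy).2⟩,
    hgood, R, h5, ?_⟩
  · exact h1.trip ht _ fun x => by rw [LinearEquiv.trans_apply, tripA_apply]
  · rw [LinearEquiv.trans_apply, tripA, mapE_e1, h2]
  · rw [LinearEquiv.trans_apply, tripA, mapE_e2, (h4 hx hy).1]
  · rw [LinearEquiv.trans_apply, tripA_aup, omapA_emb_ofF, h6]

theorem exists_m {k K : Type} [Field k] [NumberField k] [Field K] [NumberField K] [Algebra k K]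
    (h2 : Module.finrank k K = 2) {σ : K ≃ₐ[k] K} {δ : K} (hδ : σ δ = -δ)
    (hδ0 : δ ≠ 0) {a b c : kˣ} {g : Fin 3 → kˣ}
    (hgood : ∀ φ : k →+* ℝ, φ a < 0 → φ b < 0 → Dfn φ a b c)
    (hg : ∀ w : K →+* ℝ, Dfn (w.comp (algebraMap k K)) a b c → ∀ i, 0 < w (algebraMap k K (g i)))
    (hanis : ∀ x : AlbL K a b c, herm σ g x x = 0 → x = 0)
    {z : K} (hz : z * σ z = 1) {R : Matrix (Fin 3) (Fin 3) k} (hR : R.transpose = R)
    {x : AlbL K a b c} (hx : IsCay δ z g (Alb.ofF R) x)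
    (hnm : Alb.cub x = Alb.cub (Alb.one (up K a) (up K b) (up K c) (upG K g)))
    (hpos : ∀ (w : K →+* ℝ), Dfn (w.comp (algebraMap k K)) a b c → ∀ X : Matrix (Fin 3) (Fin 3) K,
      X.transpose = X → x = Alb.ofF X → ∀ u : Fin 3 → K, 0 ≤ w (u ⬝ᵥ X *ᵥ u)) :
    ∃ m : (Matrix (Fin 3) (Fin 3) (Qt (up K a) (up K b)))ˣ,
      IsU σ g g (m : Matrix (Fin 3) (Fin 3) (Qt (up K a) (up K b))) ∧
      nu (m : Matrix (Fin 3) (Fin 3) (Qt (up K a) (up K b))) = 1 ∧
      Alb.act m 1 (Alb.one _ _ _ (upG K g)) = x := by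
  obtain ⟨hx1, hx2⟩ := hx
  rw [aup_ofF] at hx1 hx2
  set RK : Matrix (Fin 3) (Fin 3) K := R.map (algebraMap k K) with hRK
  have hRKs : RK.transpose = RK := by rw [hRK, ← transpose_map, hR]
  obtain ⟨hAdet, hxX⟩ := cay_matrix (upG K g) hRKs hx1 hx2
  -- the matrices
  set D : Matrix (Fin 3) (Fin 3) K := Matrix.diagonal fun i => (upG K g i : K) with hD
  set D' : Matrix (Fin 3) (Fin 3) K := Matrix.diagonal fun i => ((upG K g i : K))⁻¹ with hD'
  have hDD' : D * D' = 1 := by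
    rw [hD, hD', diagonal_mul_diagonal, ← diagonal_one]
    congr 1
    funext i
    exact mul_inv_cancel₀ (upG K g i).ne_zero
  have hD'D : D' * D = 1 := by
    rw [hD, hD', diagonal_mul_diagonal, ← diagonal_one]
    congr 1
    funext i
    exact inv_mul_cancel₀ (upG K g i).ne_zero
  set T0 : Matrix (Fin 3) (Fin 3) k := R * Matrix.diagonal fun i => (g i : k) with hT0
  have hT0K : T0.map (algebraMap k K) = RK * D := by
    rw [hT0, Matrix.map_mul, hRK]
    congr 1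
    ext i j
    by_cases hij : i = j
    · subst hij; simp [D]
    · simp [D, hij]
  rw [← hT0K] at hAdet hxX
  set T : Matrix (Fin 3) (Fin 3) K := T0.map (algebraMap k K) with hTdef
  have hT0s : T0.transpose * Matrix.diagonal (fun i => (g i : k)) =
      Matrix.diagonal (fun i => (g i : k)) * T0 := by
    rw [hT0, transpose_mul, hR, diagonal_transpose, mul_assoc]
  have hTs : T.transpose * D = D * T := by
    rw [hT0K, transpose_mul, hRKs, hD, diagonal_transpose, mul_assoc]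
  have hTσ : T.map σ = T := by
    ext i j
    simp only [hTdef, Matrix.map_apply, σ.commutes]
  set A : Matrix (Fin 3) (Fin 3) K := 1 - δ • T with hA
  set B : Matrix (Fin 3) (Fin 3) K := 1 + δ • T with hB
  have hAu : IsUnit A.det := isUnit_iff_ne_zero.2 hAdet
  have hBA : A.map σ = B := by
    ext i j
    have := congrFun (congrFun hTσ i) j
    simp only [Matrix.map_apply] at this
    simp only [hA, hB, Matrix.map_apply, Matrix.sub_apply, Matrix.add_apply, Matrix.smul_apply,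
      smul_eq_mul, map_sub, map_mul, hδ, this, Matrix.one_apply]
    split_ifs <;> simp
  have hBdet : B.det ≠ 0 := by
    have h1 : B.det = σ A.det := by
      rw [← hBA]
      exact (RingHom.map_det (σ : K →+* K) A).symm
    rw [h1, _root_.map_ne_zero]
    exact hAdet
  have hcomm : A * B = B * A := by
    rw [hA, hB]
    generalize δ • T = S
    noncomm_ring
  set Z : Matrix (Fin 3) (Fin 3) K := z • (B * A⁻¹) with hZdef
  have hZA : Z * A = z • B := by
    rw [hZdef, smul_mul_assoc, mul_assoc, Matrix.nonsing_inv_mul _ hAu, mul_one]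
  have hz0 : z ≠ 0 := by
    rintro rfl
    rw [zero_mul] at hz
    exact zero_ne_one hz
  set X : Matrix (Fin 3) (Fin 3) K := Z * D' with hXdef
  have hXD : X * D = Z := by rw [hXdef, mul_assoc, hD'D, mul_one]
  -- symmetry
  have hAs : A.transpose * D = D * A := by
    rw [hA, transpose_sub, transpose_one, transpose_smul, sub_mul, one_mul, smul_mul_assoc, hTs,
      mul_sub, mul_one, mul_smul_comm]
  have hBs : B.transpose * D = D * B := by
    rw [hB, transpose_add, transpose_one, transpose_smul, add_mul, one_mul, smul_mul_assoc, hTs,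
      mul_add, mul_one, mul_smul_comm]
  have hAtu : IsUnit A.transpose.det := by rwa [det_transpose]
  have hZs : Z.transpose * D = D * Z := by
    have h1 : A.transpose * (Z.transpose * D) = A.transpose * (D * Z) := by
      rw [← mul_assoc, ← transpose_mul, hZA, transpose_smul, smul_mul_assoc, hBs, ← mul_assoc,
        hAs, mul_assoc]
      have h3 : A * Z = z • B := by
        rw [hZdef, mul_smul_comm, ← mul_assoc, hcomm, mul_assoc, Matrix.mul_nonsing_inv _ hAu,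
          mul_one]
      rw [h3, mul_smul_comm]
    calc Z.transpose * D = (A.transpose)⁻¹ * (A.transpose * (Z.transpose * D)) := by
          rw [← mul_assoc, Matrix.nonsing_inv_mul _ hAtu, one_mul]
      _ = D * Z := by rw [h1, ← mul_assoc, Matrix.nonsing_inv_mul _ hAtu, one_mul]
  have hXs : X.transpose = X := by
    have hD't : D'.transpose = D' := by rw [hD', diagonal_transpose]
    have h1 : Z.transpose = D * Z * D' := by rw [← hZs, mul_assoc, hDD', mul_one]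
    rw [hXdef, transpose_mul, hD't, h1, ← mul_assoc, ← mul_assoc, hD'D, one_mul]
  have hXdet : X.det ≠ 0 := by
    rw [hXdef, det_mul, hZdef, det_smul, det_mul, Matrix.det_nonsing_inv, Ring.inverse_eq_inv']
    refine mul_ne_zero (mul_ne_zero (pow_ne_zero _ hz0) (mul_ne_zero hBdet (inv_ne_zero hAdet))) ?_
    rw [hD', det_diagonal]
    exact Finset.prod_ne_zero_iff.2 fun i _ => inv_ne_zero (upG K g i).ne_zero
  -- the polynomials
  obtain ⟨η, hη0, hη⟩ := exists_eta hδ hδ0 hz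
  obtain ⟨n0, hn0⟩ := Five.exists_fix h2 hδ hδ0 (η * σ η) (by
    rw [map_mul, Five.invol h2 hδ hδ0, mul_comm])
  obtain ⟨d, hd⟩ := Five.exists_fix h2 hδ hδ0 (δ ^ 2) (by rw [map_pow, hδ, neg_sq])
  have hση0 : σ η ≠ 0 := by rwa [_root_.map_ne_zero]
  let Y : K[X] := C η * (1 + C δ * Polynomial.X)
  let Yσ : K[X] := C (σ η) * (1 - C δ * Polynomial.X)
  let p0 : k[X] := C n0 * (1 - C d * Polynomial.X ^ 2)
  have hP : p0.map (algebraMap k K) = Y * Yσ := by
    simp only [p0, Y, Yσ, Polynomial.map_mul, Polynomial.map_sub, Polynomial.map_one, map_C,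
      Polynomial.map_pow, map_X, hn0, hd, map_mul, map_pow]
    ring
  have hYT : aeval T Y = η • B := by
    simp only [Y, map_mul, map_add, map_one, aeval_C, aeval_X, Algebra.algebraMap_eq_smul_one,
      smul_mul_assoc, one_mul, hB]
  have hYσT : aeval T Yσ = σ η • A := by
    simp only [Yσ, map_mul, map_sub, map_one, aeval_C, aeval_X, Algebra.algebraMap_eq_smul_one,
      smul_mul_assoc, one_mul, hA]
  have hp0 : IsUnit (aeval T0 p0) := by
    rw [Matrix.isUnit_iff_isUnit_det, isUnit_iff_ne_zero]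
    intro h0
    have h1 : ((aeval T0 p0).map (algebraMap k K)).det = 0 := by
      have h3 := RingHom.map_det (algebraMap k K) (aeval T0 p0)
      rw [h0, map_zero] at h3
      exact h3.symm
    rw [← aeval_map_alg, hP, map_mul, hYT, hYσT, det_mul, det_smul, det_smul] at h1
    have h3 : η ^ Fintype.card (Fin 3) * B.det * (σ η ^ Fintype.card (Fin 3) * A.det) ≠ 0 :=
      mul_ne_zero (mul_ne_zero (pow_ne_zero _ hη0) hBdet)
        (mul_ne_zero (pow_ne_zero _ hση0) hAdet)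
    exact h3 h1
  obtain ⟨q0, q1, q2, q3, q, hq, hq1⟩ := exists_nrd_poly hT0s (anisG_of_herm hanis) hp0 (by
    intro τ ρ u ha hb hu he
    have h1 := sign_aux h2 hδ hδ0 hgood hg hXs hXdet hXD (by rw [← hTdef, ← hA, ← hB]; exact hZA)
      (fun w hw u => hpos w hw X hXs hxX u) hη0 hη hn0 hd τ ρ u ha hb hu he
    have h3 : p0.eval₂ τ ρ = τ n0 * (1 - τ d * ρ ^ 2) := by
      simp only [p0, eval₂_mul, eval₂_C, eval₂_sub, eval₂_one, eval₂_pow, eval₂_X]
    rw [h3]
    exact h1)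
  let n : QP K a b := ⟨q0.map (algebraMap k K), q1.map (algebraMap k K), q2.map (algebraMap k K),
    q3.map (algebraMap k K)⟩
  have hmapσ : ∀ p : k[X], (p.map (algebraMap k K)).map (σ : K →+* K) = p.map (algebraMap k K) := by
    intro p
    rw [Polynomial.map_map]
    congr 1
    ext t
    exact σ.commutes t
  have hYY : Y.map (σ : K →+* K) = Yσ := by
    simp only [Y, Yσ, Polynomial.map_mul, Polynomial.map_add, Polynomial.map_one, map_C, map_X,
      RingHom.coe_coe, hδ, map_neg, neg_mul, sub_eq_add_neg]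
  have hNn : aeval T (NnS n) = aeval T (p0.map (algebraMap k K)) := by
    rw [aeval_map_alg, ← hq, ← aeval_map_alg]
    congr 1
    simp only [NnS, n, Polynomial.map_add, Polynomial.map_sub, Polynomial.map_mul,
      Polynomial.map_pow, map_C]
    rfl
  have hPQ : aeval T (p0.map (algebraMap k K) * q.map (algebraMap k K)) = 1 := by
    rw [← Polynomial.map_mul, aeval_map_alg, hq1]
    ext i j
    simp only [Matrix.map_apply, Matrix.one_apply]
    split_ifs <;> simp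
  obtain ⟨m, hm1, hm2⟩ := exists_core σ g hTs hTσ hP hYY (hmapσ q) (hmapσ q0) (hmapσ q1)
    (hmapσ q2) (hmapσ q3) hNn hPQ
  -- identification of the first factor
  have hYZ : aeval T (Y ^ 2 * q.map (algebraMap k K)) = Z := by
    have h1 : aeval T (Y ^ 2 * q.map (algebraMap k K)) * (σ η • A) = η • B := by
      rw [← hYσT, ← map_mul]
      have h3 : Y ^ 2 * q.map (algebraMap k K) * Yσ =
          Y * (p0.map (algebraMap k K) * q.map (algebraMap k K)) := by
        rw [hP]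
        ring
      rw [h3, map_mul, hPQ, mul_one, hYT]
    have h3 : aeval T (Y ^ 2 * q.map (algebraMap k K)) * A = z • B := by
      rw [mul_smul_comm] at h1
      have h4 := congrArg (fun M => (σ η)⁻¹ • M) h1
      simp only [smul_smul, inv_mul_cancel₀ hση0, one_smul] at h4
      rw [h4]
      congr 1
      rw [inv_mul_eq_iff_eq_mul₀ hση0, mul_comm]
      exact hη
    calc aeval T (Y ^ 2 * q.map (algebraMap k K))
        = aeval T (Y ^ 2 * q.map (algebraMap k K)) * A * A⁻¹ := by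
          rw [mul_assoc, Matrix.mul_nonsing_inv _ hAu, mul_one]
      _ = Z := by rw [h3, smul_mul_assoc]
  rw [hYZ, toM_mul_dgi] at hm2
  have h2K : (2 : K) ≠ 0 := two_ne_zero
  have hact : Alb.act m 1 (Alb.one (up K a) (up K b) (up K c) (upG K g)) = x := by
    have e1 : Alb.mat (Alb.one (up K a) (up K b) (up K c) (upG K g)) =
        H64.dgi (up K a) (up K b) (upG K g) := by
      rw [← ofMV_dgi, mat_ofMV h2K (dgi_isHermitian _)]
    have e2 : Alb.vec (Alb.one (up K a) (up K b) (up K c) (upG K g)) = 0 := by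
      funext i
      fin_cases i <;> simp [Alb.vec, Alb.one]
    rw [Alb.act, e1, e2, hm2, hxX, ← ofMV_toM (a := up K a) (b := up K b)]
    congr 1
    funext i
    simp
  refine ⟨m, hm1, ?_, hact⟩
  have h3 := herN_mulG h2K (m : Matrix (Fin 3) (Fin 3) (Qt (up K a) (up K b)))
    (H64.dgi (up K a) (up K b) (upG K g)) (dgi_isHermitian _)
  rw [hm2, ← cub_ofMV_zero (c := up K c), ofMV_toM, ← cub_ofMV_zero (c := up K c)
    (H64.dgi (up K a) (up K b) (upG K g)), ofMV_dgi, ← hnm] at h3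
  have h4 : Alb.cub x = Alb.cub (Alb.ofF X : AlbL K a b c) := by rw [← hxX]
  rw [← h4] at h3
  have h5 : Alb.cub x ≠ 0 := by
    rw [hnm, Alb.cub_one]
    exact inv_ne_zero (Alb.gam_ne _)
  exact mul_right_cancel₀ h5 (by rw [← h3, one_mul])

theorem exists_move {k : Type} [Field k] [NumberField k] {a b : kˣ} (g : Fin 3 → kˣ)
    (hab : Aniso a b) (han : ∀ v : Fin 3 → Qt a b, ∑ j, (g j : k) * nrd (v j) = 0 → v = 0) (i0 : Fin 3) (t : kˣ) (w : Fin 3 → k)
    (htr : (t : k) * ∑ i, (g i : k) * w i ^ 2 = g i0)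
    (ht : ∀ φ : k →+* ℝ, φ a < 0 → φ b < 0 → 0 < φ t) :
    ∃ (m : (Matrix (Fin 3) (Fin 3) (Qt a b))ˣ) (q : Qt a b), nrd q = t ∧
      (m : Matrix (Fin 3) (Fin 3) (Qt a b))ᴴ * dg a b g * (m : Matrix (Fin 3) (Fin 3) (Qt a b)) =
        dg a b g ∧
      (∀ i, (m : Matrix (Fin 3) (Fin 3) (Qt a b)) i i0 = w i • q) ∧
      (∀ j, j ≠ i0 → w j = 0 → ∀ i, (m : Matrix (Fin 3) (Fin 3) (Qt a b)) i j =
        (1 : Matrix (Fin 3) (Fin 3) (Qt a b)) i j) ∧
      ∀ {F' : Type} [Field F'] [Algebra k F'] (f : Qt a b →ₐ[k] Matrix (Fin 2) (Fin 2) F'),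
        (∀ x, (f x).det = algebraMap k F' (nrd x)) →
          H64.rN f (m : Matrix (Fin 3) (Fin 3) (Qt a b)) = 1 := by
  obtain ⟨q, hq⟩ := exists_nrd t ht
  have hu : ∑ j, (g j : k) * nrd (w j • q) = g i0 := by
    rw [← htr, Finset.mul_sum]
    refine Finset.sum_congr rfl fun j _ => ?_
    rw [nrd_smul', hq]
    ring
  have h0 : nrd (1 - w i0 • q) ≠ 0 ∨ (fun j => w j • q) = Pi.single i0 1 := by
    by_cases h : nrd (1 - w i0 • q) = 0
    · right
      have h1 : w i0 • q = 1 := (sub_eq_zero.mp (hab _ h)).symm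
      have h2 : ∀ j, j ≠ i0 → w j • q = 0 := fun j hj => by
        have h3 := han (Function.update (fun j => w j • q) i0 0) (by
          rw [← Finset.add_sum_erase _ _ (Finset.mem_univ i0), h1, nrd_one, mul_one,
            add_eq_left] at hu
          rw [← Finset.add_sum_erase _ _ (Finset.mem_univ i0), Function.update_self,
            Finset.sum_congr rfl fun l hl => by
              rw [Function.update_of_ne (Finset.ne_of_mem_erase hl)], hu]
          simp [nrd])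
        simpa only [Function.update_of_ne hj, Pi.zero_apply] using congrFun h3 j
      funext j
      by_cases hj : j = i0
      · subst hj
        rw [Pi.single_eq_same]
        exact h1
      · rw [Pi.single_eq_of_ne hj]
        exact h2 j hj
    · exact Or.inl h
  obtain ⟨m, h1, h2, h3, h4⟩ := exists_refl g (fun j => w j • q) i0 hu h0
  refine ⟨m, q, hq, h1, h2, fun j hj hwj i => h3 j hj ?_ i, h4⟩
  simp only [hwj, zero_smul]

variable {k K : Type} [Field k] [NumberField k] [Field K] [NumberField K] [Algebra k K]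
  (h2 : Module.finrank k K = 2) {σ : K ≃ₐ[k] K} (hσ : σ ≠ 1) {a b c : kˣ} {g : Fin 3 → kˣ}

include h2 hσ in
theorem exists_mat {φ : AlbL K a b c ≃ₗ[K] AlbL K a b c} (hφ : φ ∈ GE σ a b c g)
    (h1 : φ (Alb.one _ _ _ (upG K g)) = Alb.one _ _ _ (upG K g))
    (hanis : ∀ x : AlbL K a b c, herm σ g x x = 0 → x = 0)
    (hgood : ∀ w : k →+* ℝ, w a < 0 → w b < 0 → Dfn w a b c) (i0 : Fin 3) {E : Alb a b c}
    (hmat : mat E = Matrix.single i0 i0 1) (hvec : Alb.vec E = 0) (hE : adj E = 0) (hE0 : E ≠ 0)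
    (htE : tG g E = g i0)
    (hsign : ∀ w : k →+* ℝ, Dfn w a b c → ∀ φk : Alb a b c ≃ₗ[k] Alb a b c,
      (∀ x, cub (φk x) = cub x) → ∀ (t : k) (u : Fin 3 → k),
        φk E = ofF (t • vecMulVec u u) → 0 < w t)
    {R : Matrix (Fin 3) (Fin 3) k} (hR : R.transpose = R)
    (hER : φ (aup K E) = aup K (ofF R)) :
    ∃ m : (Matrix (Fin 3) (Fin 3) (Qt a b))ˣ,
      (m : Matrix (Fin 3) (Fin 3) (Qt a b))ᴴ * dg a b g * (m : Matrix (Fin 3) (Fin 3) (Qt a b)) =
        dg a b g ∧ Alb.act m 1 E = ofF R ∧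
      ∀ j, j ≠ i0 → R j j = 0 → ∀ i, (m : Matrix (Fin 3) (Fin 3) (Qt a b)) i j =
        (1 : Matrix (Fin 3) (Fin 3) (Qt a b)) i j := by
  obtain ⟨δ, hδ, hδ0⟩ := exists_delta8 h2 hσ
  have hinv := Five.invol h2 hδ hδ0
  have hfix := Five.exists_fix h2 hδ hδ0
  obtain ⟨t, w, hw, htr⟩ := rank_image h2 hσ hφ h1 hE hE0 hR hER
  have hRe : R = (t : k) • vecMulVec w w := by
    ext i j
    rw [hw, Matrix.smul_apply, vecMulVec_apply, smul_eq_mul]
  obtain ⟨φk, hφk⟩ := descend hfix (ge_real hinv hφ h1)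
  have hφE : φk E = ofF ((t : k) • vecMulVec w w) := by
    apply aup_injective (K := K)
    rw [hφk, hER, hRe]
  have ht : ∀ f : k →+* ℝ, f a < 0 → f b < 0 → 0 < f t := fun f ha hb =>
    hsign f (hgood f ha hb) φk (cub_descend hφ.1 hφk) t w hφE
  obtain ⟨m, q, hq, hm, hcol, hm0, -⟩ := exists_move g (div_of hanis).aniso (anis_k hanis) i0 t w
    (by rw [htr, htE]) ht
  refine ⟨m, hm, ?_, fun j hj hRj => hm0 j hj ?_⟩
  · rw [act_single m 1 hmat hvec hq hcol, hRe]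
    congr 1
  · rw [hw] at hRj
    exact mul_self_eq_zero.mp ((mul_eq_zero.mp hRj).resolve_left t.ne_zero)

variable (hanis : ∀ x : AlbL K a b c, herm σ g x x = 0 → x = 0)
  {N : Subgroup (AlbL K a b c ≃ₗ[K] AlbL K a b c)} (hNle : N ≤ GE σ a b c g)
  (hN : ∀ φ ∈ GE σ a b c g, ∀ n ∈ N, φ * n * φ⁻¹ ∈ N) (hA : HasA σ g N)

include hA in
theorem exists_n {a' b' c' : kˣ} {g' : Fin 3 → kˣ} {ψ : AlbL K a' b' c' ≃ₗ[K] AlbL K a b c}
    (hψ : Reach σ g g' ψ) {m : (Matrix (Fin 3) (Fin 3) (Qt a' b'))ˣ}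
    (hm : (m : Matrix (Fin 3) (Fin 3) (Qt a' b'))ᴴ * dg a' b' g' *
      (m : Matrix (Fin 3) (Fin 3) (Qt a' b')) = dg a' b' g') :
    ∃ n ∈ N, n (Alb.one _ _ _ (upG K g)) = Alb.one _ _ _ (upG K g) ∧
      ∀ x : Alb a' b' c', n (ψ (aup K x)) = ψ (aup K (Alb.act m 1 x)) := by
  have hc := coord hψ
  obtain ⟨n, hn⟩ : ∃ n : AlbL K a b c ≃ₗ[K] AlbL K a b c,
      ∀ x, n (ψ x) = ψ (Alb.act (upU K m) 1 x) := by
    refine ⟨(ψ.symm.trans (H64.actL two_ne_zero (upU K m) 1)).trans ψ, fun x => ?_⟩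
    rw [LinearEquiv.trans_apply, LinearEquiv.trans_apply, LinearEquiv.symm_apply_apply]
    rfl
  refine ⟨n, hA a' b' c' g' ψ hψ (upU K m) (isU_upU σ hm) (nu_upU hm) n hn, ?_,
    fun x => ?_⟩
  · have h1 : (upU K m : Matrix (Fin 3) (Fin 3) (Qt (up K a') (up K b')))ᴴ *
        dg (up K a') (up K b') (upG K g') *
        (upU K m : Matrix (Fin 3) (Fin 3) (Qt (up K a') (up K b'))) =
          dg (up K a') (up K b') (upG K g') := by
      rw [upU_val, ← map_qup_conjTranspose, ← map_qup_dg, ← map_mul_qup, ← map_mul_qup, hm]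
    rw [← hc.one, hn, H64.act_one (c := up K c') two_ne_zero h1]
  · rw [hn, act_upU]

include h2 hσ hanis hA

theorem fix_e1 {φ : AlbL K a b c ≃ₗ[K] AlbL K a b c} (hφ : φ ∈ GE σ a b c g)
    (h1 : φ (Alb.one _ _ _ (upG K g)) = Alb.one _ _ _ (upG K g)) :
    ∃ n ∈ N, n (Alb.one _ _ _ (upG K g)) = Alb.one _ _ _ (upG K g) ∧ n e1 = φ e1 := by
  obtain ⟨δ, hδ, hδ0⟩ := exists_delta8 h2 hσ
  have hinv := Five.invol h2 hδ hδ0
  have hfix := Five.exists_fix h2 hδ hδ0
  obtain ⟨r, hr⟩ := exists_aup σ hfix (x := φ e1) (by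
    rw [← ge_real hinv hφ h1, ← aup_e1, amap_aup])
  obtain ⟨a', b', c', g', ψ, hψ, hψ1, -, -, hgood, R, hR, hψR⟩ :=
    lanczos_good (σ := σ) (div_of hanis) (hanis_down hanis) r
  have hc := coord hψ
  have hφ' := hc.symm.conj_mem hφ
  obtain ⟨m, hm, hmE, -⟩ := exists_mat h2 hσ hφ' (by
      rw [LinearEquiv.trans_apply, LinearEquiv.trans_apply, LinearEquiv.symm_symm, hc.one, h1,
        ← hc.one, LinearEquiv.symm_apply_apply]) (anis_coord hc hanis) hgood 0 mat_e1 vec_e1 adj_e1 e1_ne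
      (tG_e1 _) (fun w hw φk hφk t u h => Lit.sign_of_orbit w hw hφk h) hR (by
      rw [LinearEquiv.trans_apply, LinearEquiv.trans_apply, LinearEquiv.symm_symm, aup_e1, hψ1,
        ← hr, ← hψR, LinearEquiv.symm_apply_apply])
  obtain ⟨n, hn, hn1, hn2⟩ := exists_n hA hψ hm
  refine ⟨n, hn, hn1, ?_⟩
  have e := hn2 e1
  rwa [aup_e1, hψ1, hmE, hψR, hr] at e

theorem fix_e2 {φ : AlbL K a b c ≃ₗ[K] AlbL K a b c} (hφ : φ ∈ GE σ a b c g)
    (h1 : φ (Alb.one _ _ _ (upG K g)) = Alb.one _ _ _ (upG K g)) (he : φ e1 = e1) :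
    ∃ n ∈ N, n (Alb.one _ _ _ (upG K g)) = Alb.one _ _ _ (upG K g) ∧ n e1 = e1 ∧
      n e2 = φ e2 := by
  obtain ⟨δ, hδ, hδ0⟩ := exists_delta8 h2 hσ
  have hinv := Five.invol h2 hδ hδ0
  have hfix := Five.exists_fix h2 hδ hδ0
  obtain ⟨r, hr⟩ := exists_aup σ hfix (x := φ e2) (by
    rw [← ge_real hinv hφ h1, ← aup_e2, amap_aup])
  obtain ⟨hb1, hb2, hb3⟩ := block hinv hφ h1 he
  have hr2 : r.x2 = 0 := by
    apply oup_injective (K := K)
    rw [oup_zero, ← hb2, ← hr]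
    rfl
  have hr3 : r.x3 = 0 := by
    apply oup_injective (K := K)
    rw [oup_zero, ← hb3, ← hr]
    rfl
  obtain ⟨a', b', c', g', ψ, hψ, hψ1, -, hcl, hgood, R, hR, hψR⟩ :=
    lanczos_good (σ := σ) (div_of hanis) (hanis_down hanis) r
  obtain ⟨hψ2, -⟩ := hcl hr2 hr3
  have hc := coord hψ
  have hφ' := hc.symm.conj_mem hφ
  have h1' : ((ψ.symm.symm.trans φ).trans ψ.symm) (Alb.one _ _ _ (upG K g')) =
      Alb.one _ _ _ (upG K g') := by
    rw [LinearEquiv.trans_apply, LinearEquiv.trans_apply, LinearEquiv.symm_symm, hc.one, h1,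
      ← hc.one, LinearEquiv.symm_apply_apply]
  have he' : ((ψ.symm.symm.trans φ).trans ψ.symm) e1 = e1 := by
    rw [LinearEquiv.trans_apply, LinearEquiv.trans_apply, LinearEquiv.symm_symm, hψ1, he]
    conv_lhs => rw [← hψ1]
    rw [LinearEquiv.symm_apply_apply]
  have hER : ((ψ.symm.symm.trans φ).trans ψ.symm) (aup K e2) = aup K (ofF R) := by
    rw [LinearEquiv.trans_apply, LinearEquiv.trans_apply, LinearEquiv.symm_symm, aup_e2, hψ2,
      ← hr, ← hψR, LinearEquiv.symm_apply_apply]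
  obtain ⟨m, hm, hmE, hm0⟩ := exists_mat h2 hσ hφ' h1' (anis_coord hc hanis) hgood 1 mat_e2 vec_e2 adj_e2 e2_ne
      (tG_e2 _) (fun w hw φk hφk t u h => sign_of_orbit2 w hw hφk h) hR hER
  have hR0 : R 0 0 = 0 := by
    obtain ⟨hb1', -, -⟩ := block hinv hφ' h1' he'
    rw [← aup_e2, hER] at hb1'
    exact (map_eq_zero (algebraMap k K)).mp hb1'
  have hm1 : Alb.act m 1 (e1 : Alb a' b' c') = e1 := by
    rw [act_single m 1 mat_e1 vec_e1 (q := 1) (t := 1) nrd_one (w := fun i => if i = 0 then 1 else 0)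
      (fun i => by
        rw [hm0 0 (by decide) hR0 i]
        by_cases hi : i = 0
        · subst hi
          simp
        · rw [if_neg hi, zero_smul, Matrix.one_apply_ne hi])]
    ext1 <;> simp [ofF, e1]
  obtain ⟨n, hn, hn1, hn2⟩ := exists_n hA hψ hm
  refine ⟨n, hn, hn1, ?_, ?_⟩
  · have e := hn2 e1
    rwa [aup_e1, hψ1, hm1, aup_e1, hψ1] at e
  · have e := hn2 e2
    rwa [aup_e2, hψ2, hmE, hψR, hr] at e

include hNle in
theorem fix_e {φ : AlbL K a b c ≃ₗ[K] AlbL K a b c} (hφ : φ ∈ GE σ a b c g)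
    (h1 : φ (Alb.one _ _ _ (upG K g)) = Alb.one _ _ _ (upG K g)) :
    ∃ n ∈ N, (n * φ) (Alb.one _ _ _ (upG K g)) = Alb.one _ _ _ (upG K g) ∧
      (n * φ) Alb.e1 = Alb.e1 ∧ (n * φ) Alb.e2 = Alb.e2 := by
  obtain ⟨n, hn, hn1, hn2⟩ := fix_e1 h2 hσ hanis hA hφ h1
  have hinv : ∀ (n : AlbL K a b c ≃ₗ[K] AlbL K a b c) (x y : AlbL K a b c), n x = y →
      n⁻¹ y = x := by
    intro n x y h
    rw [← h, ← LinearEquiv.mul_apply, inv_mul_cancel]
    rfl
  have hφ1 : n⁻¹ * φ ∈ GE σ a b c g := mul_mem (inv_mem (hNle hn)) hφ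
  have h3 : (n⁻¹ * φ) (Alb.one _ _ _ (upG K g)) = Alb.one _ _ _ (upG K g) := by
    rw [LinearEquiv.mul_apply, h1]
    exact hinv _ _ _ hn1
  have h4 : (n⁻¹ * φ) e1 = e1 := by
    rw [LinearEquiv.mul_apply]
    exact hinv _ _ _ hn2
  obtain ⟨n', hn', hn1', hn2', hn3'⟩ := fix_e2 h2 hσ hanis hA hφ1 h3 h4
  refine ⟨n'⁻¹ * n⁻¹, mul_mem (inv_mem hn') (inv_mem hn), ?_, ?_, ?_⟩
  · rw [mul_assoc, LinearEquiv.mul_apply, h3]
    exact hinv _ _ _ hn1'
  · rw [mul_assoc, LinearEquiv.mul_apply, h4]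
    exact hinv _ _ _ hn2'
  · rw [mul_assoc, LinearEquiv.mul_apply]
    exact hinv _ _ _ hn3'

omit h2 hσ hanis in
open Rl in
theorem hasR_comap :
    HasR (N.comap (rhom K a b c)) := by
  intro a' b' c' Φ hΦ t
  have ht : Trip a' b' c' (Φ gi) (Φ gj) (Φ gl) := trip_map trip_std hΦ
  have key : ∀ (u : Fin 3 → SL1 a' b') (r : Rel a' b' c'),
      (∀ x : Alb a' b' c', act (diagU u) 1 x = ract r x) →
        conjR Φ hΦ r ∈ N.comap (rhom K a b c) := by
    intro u r hr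
    change rlin K (conjR Φ hΦ r) ∈ N
    have hm := unitary_diagU u g
    refine hA a' b' c' g (tripA K ht) (Reach.trip Reach.refl ht _ fun x => tripA_apply ht x)
      (upU K (diagU u)) (isU_upU σ hm) (nu_upU hm) _ fun x => ?_
    have h2 : (tripA K ht).trans (rlin K (conjR Φ hΦ r)) =
        (H64.actL (two_ne_zero (α := K)) (upU K (diagU u)) 1).trans (tripA K ht) := by
      apply alb_unique'
      intro x
      rw [LinearEquiv.trans_apply, LinearEquiv.trans_apply, H64.actL_apply, Units.val_one,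
        act_upU, hr, tripA_aup, tripA_aup, rlin_aup]
      congr 1
      have e : ∀ y, emb (Φ gi) (Φ gj) (Φ gl) y = Φ y := fun y => (hom_emb hΦ y).symm
      apply Alb.ext
      · rfl
      · rfl
      · rfl
      · change Φ (r.1.1 (Φ.symm (emb (Φ gi) (Φ gj) (Φ gl) x.x1))) =
          emb (Φ gi) (Φ gj) (Φ gl) (r.1.1 x.x1)
        rw [e, e, Φ.symm_apply_apply]
      · change Φ (r.1.2.1 (Φ.symm (emb (Φ gi) (Φ gj) (Φ gl) x.x2))) =
          emb (Φ gi) (Φ gj) (Φ gl) (r.1.2.1 x.x2)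
        rw [e, e, Φ.symm_apply_apply]
      · change Φ (r.1.2.2 (Φ.symm (emb (Φ gi) (Φ gj) (Φ gl) x.x3))) =
          emb (Φ gi) (Φ gj) (Φ gl) (r.1.2.2 x.x3)
        rw [e, e, Φ.symm_apply_apply]
    have h3 := congrArg (fun f : AlbL K a' b' c' ≃ₗ[K] AlbL K a b c => f x) h2
    simp only [LinearEquiv.trans_apply, H64.actL_apply, Units.val_one] at h3
    exact h3
  exact ⟨key _ _ (ract_A1 t), key _ _ (ract_A2 t)⟩

omit hA in
theorem exists_rel_of_fix {φ : AlbL K a b c ≃ₗ[K] AlbL K a b c} (hφ : φ ∈ GE σ a b c g)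
    (h0 : φ (Alb.one _ _ _ (upG K g)) = Alb.one _ _ _ (upG K g))
    (h1 : φ Alb.e1 = Alb.e1) (h2' : φ Alb.e2 = Alb.e2) :
    ∃ r : Rl.Rel a b c, φ = Rl.rlin K r := by
  obtain ⟨δ, hδ, hδ0⟩ := exists_delta_tw h2 hσ
  have hfix : ∀ t : K, σ t = t → ∃ s : k, algebraMap k K s = t := Five.exists_fix h2 hδ hδ0
  have hσ2 := sigma_sigma h2 hσ
  obtain ⟨f, hf⟩ := descend hfix (ge_real hσ2 hφ h0)
  have hc := cub_descend (K := K) hφ.1 hf
  have f1 : f e1 = e1 := by
    apply aup_injective (K := K)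
    rw [hf]
    have e : aup K (e1 : Alb a b c) = e1 := by
      apply Alb.ext <;> simp [aup, e1]
    rw [e, h1]
  have f2 : f e2 = e2 := by
    apply aup_injective (K := K)
    rw [hf]
    have e : aup K (e2 : Alb a b c) = e2 := by
      apply Alb.ext <;> simp [aup, e2]
    rw [e, h2']
  have f0 : f (one a b c g) = one a b c g := by
    apply aup_injective (K := K)
    rw [hf, one_aup, h0]
  have f3 : f e3 = e3 := by
    have e : (e3 : Alb a b c) = (g 2 : k) • (one a b c g - ((g 0 : k)⁻¹ • e1 + (g 1 : k)⁻¹ • e2)) := by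
      apply Alb.ext <;> simp [e1, e2, e3]
    rw [e, map_smul, map_sub, map_add, map_smul, map_smul, f0, f1, f2]
  obtain ⟨r, hr⟩ := Rl.exists_rel (div_of hanis) hc f1 f2 f3
  refine ⟨r, Rl.alb_unique' fun x => ?_⟩
  rw [← hf, hr, Rl.rlin_aup]

include hN in
theorem mem_of_fix' {φ : AlbL K a b c ≃ₗ[K] AlbL K a b c} (hφ : φ ∈ GE σ a b c g)
    (h0 : φ (Alb.one _ _ _ (upG K g)) = Alb.one _ _ _ (upG K g))
    (h1 : φ Alb.e1 = Alb.e1) (h2' : φ Alb.e2 = Alb.e2) : φ ∈ N := by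
  obtain ⟨r, rfl⟩ := exists_rel_of_fix h2 hσ hanis hφ h0 h1 h2'
  have hn : (N.comap (Rl.rhom K a b c)).Normal := by
    refine ⟨fun n hn s => ?_⟩
    change Rl.rhom K a b c (s * n * s⁻¹) ∈ N
    rw [map_mul, map_mul, map_inv]
    exact hN _ (Rl.rlin_mem σ g s) _ hn
  have htop := Rl.rel_top (div_of hanis) hn (hasR_comap hA)
  have h3 : r ∈ N.comap (Rl.rhom K a b c) := by
    rw [htop]
    exact Subgroup.mem_top r
  exact h3

variable
  (hpos : ∀ w : K →+* ℝ, Dfn (w.comp (algebraMap k K)) a b c → ∀ i, 0 < w (algebraMap k K (g i)))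

include hpos

theorem fix_one {φ : AlbL K a b c ≃ₗ[K] AlbL K a b c} (hφ : φ ∈ GE σ a b c g) :
    ∃ n ∈ N, (n * φ) (Alb.one _ _ _ (upG K g)) = Alb.one _ _ _ (upG K g) := by
  obtain ⟨δ, hδ, hδ0⟩ := exists_delta_fo h2 hσ
  obtain ⟨z, r, hz, hr⟩ := Five.exists_real h2 hσ hδ hδ0 hφ
  obtain ⟨a', b', c', g', ψ, hψ, -, -, -, hgood, R, hR, hRr⟩ :=
    lanczos_good (K := K) (σ := σ) (div_of hanis) (anis_down_fo hanis) r
  have hcoord := coord hψ
  have hanis' : ∀ x : AlbL K a' b' c', herm σ g' x x = 0 → x = 0 := H64.anis_coord hcoord hanis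
  have hpos' : ∀ w : K →+* ℝ, Dfn (w.comp (algebraMap k K)) a' b' c' →
      ∀ i, 0 < w (algebraMap k K (g' i)) := by
    intro w hw i
    have hw' := (Reach.dfn hψ (w.comp (algebraMap k K))).1 hw
    exact Reach.pos hψ w hw' (hpos w hw') i
  set x := ψ.symm (φ (Alb.one _ _ _ (upG K g))) with hx
  have hψx : ψ x = φ (Alb.one _ _ _ (upG K g)) := ψ.apply_symm_apply _
  have hcay : IsCay δ z g' (Alb.ofF R) x :=
    IsCoord.isCay hcoord hRr (by rw [hψx]; exact hr)
  obtain ⟨μ, hμ, hcub⟩ := hcoord.cub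
  have hnm : Alb.cub x = Alb.cub (Alb.one (up K a') (up K b') (up K c') (upG K g')) := by
    apply mul_left_cancel₀ hμ
    rw [← hcub, ← hcub, hψx, hφ.1, hcoord.one]
  have hP : ∀ (w : K →+* ℝ), Dfn (w.comp (algebraMap k K)) a' b' c' →
      ∀ X : Matrix (Fin 3) (Fin 3) K, X.transpose = X → x = Alb.ofF X → ∀ u : Fin 3 → K,
        0 ≤ w (u ⬝ᵥ X *ᵥ u) := by
    intro w hw X hX hxX u
    refine Lit.pos_of_orbit (a := up K a') (b := up K b') (c := up K c') (g := upG K g') w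
      hw (hpos' w hw) (φ := (ψ.trans φ).trans ψ.symm) (fun y => ?_) hX ?_ u
    · apply mul_left_cancel₀ hμ
      rw [← hcub, LinearEquiv.trans_apply, LinearEquiv.trans_apply,
        LinearEquiv.apply_symm_apply, hφ.1, hcub]
    · rw [LinearEquiv.trans_apply, LinearEquiv.trans_apply, hcoord.one, ← hx, hxX]
  obtain ⟨m, hm, hnu, hmx⟩ := exists_m h2 hδ hδ0 hgood hpos' hanis' hz hR hcay hnm hP
  obtain ⟨φ', hφ', hact⟩ := exists_actU (σ := σ) (c := c') (g := g') m hm hnu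
  have hmem : (ψ.symm.trans φ').trans ψ ∈ N := by
    refine hA a' b' c' g' ψ hψ m hm hnu _ fun y => ?_
    rw [LinearEquiv.trans_apply, LinearEquiv.trans_apply, LinearEquiv.symm_apply_apply, hact]
  refine ⟨((ψ.symm.trans φ').trans ψ)⁻¹, inv_mem hmem, ?_⟩
  have h1 : ((ψ.symm.trans φ').trans ψ) (Alb.one _ _ _ (upG K g)) =
      φ (Alb.one _ _ _ (upG K g)) := by
    rw [LinearEquiv.trans_apply, LinearEquiv.trans_apply, ← hcoord.one,
      LinearEquiv.symm_apply_apply, hact, hmx, hψx]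
    rw [hcoord.one]
  rw [LinearEquiv.mul_apply, ← h1, ← LinearEquiv.mul_apply, inv_mul_cancel]
  rfl

include hNle hN in
theorem core : N = GE σ a b c g := by
  apply le_antisymm hNle
  intro φ hφ
  obtain ⟨n, hn, h1⟩ := fix_one h2 hσ hanis hA hpos hφ
  have hφ1 : n * φ ∈ GE σ a b c g := mul_mem (hNle hn) hφ
  obtain ⟨n', hn', h3, h4, h5⟩ := fix_e h2 hσ hanis hNle hA hφ1 h1
  have hφ2 : n' * (n * φ) ∈ GE σ a b c g := mul_mem (hNle hn') hφ1
  have h6 := mem_of_fix' h2 hσ hanis hN hA hφ2 h3 h4 h5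
  have h7 := mul_mem (inv_mem hn) (mul_mem (inv_mem hn') h6)
  rwa [inv_mul_cancel_left, inv_mul_cancel_left] at h7

end Vale.Agent.P011.E6.NF
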