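import Vale.Agent.P011NF.Core
import Vale.Agent.P011NE.Brg

/-!
Normal subgroups of the special unitary groups of degree three over `Q ⊗ K`, also when this
algebra is split.
-/

open Matrix

namespace Vale.Agent.P011.E6.NF

open Vale.Agent.P011.MPQ Vale.Agent.P011.D4 Vale.Agent.P011.D4.Oct Vale.Agent.P011.NM
open Vale.Agent.P011S (UH SU redNorm IsAnisotropicForm)

/-- The splitting of the quaternion algebra, when `b` is a norm. -/
noncomputable def spn {F : Type} [Field F] [NeZero (2 : F)] {a b : Fˣ} {x y : F}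
    (h : (b : F) = x ^ 2 - a * y ^ 2) : Qt a b ≃ₐ[F] Matrix (Fin 2) (Fin 2) F where
  toFun q := !![q.re + q.imJ * x + q.imK * a * y, a * (q.imI - q.imJ * y - q.imK * x);
    q.imI + q.imJ * y + q.imK * x, q.re - q.imJ * x - q.imK * a * y]
  invFun M := ⟨(M 0 0 + M 1 1) / 2, (M 0 1 / a + M 1 0) / 2,
    (x * (M 0 0 - M 1 1) - y * (a * M 1 0 - M 0 1)) / (2 * b),
    (x * (M 1 0 - M 0 1 / a) - y * (M 0 0 - M 1 1)) / (2 * b)⟩
  left_inv q := by
    have ha := a.ne_zero
    have hb := b.ne_zero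
    have h2 : (2 : F) ≠ 0 := two_ne_zero
    apply QuaternionAlgebra.ext <;>
      simp only [Matrix.of_apply, Matrix.cons_val_zero, Matrix.cons_val_one] <;> field_simp <;>
      first | ring1 | linear_combination -2 * q.imJ * h | linear_combination -2 * q.imK * h
  right_inv M := by
    have ha := a.ne_zero
    have hb := b.ne_zero
    have h2 : (2 : F) ≠ 0 := two_ne_zero
    ext i j
    fin_cases i <;> fin_cases j <;> simp <;> field_simp <;> rw [h] <;> ring
  map_mul' p q := by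
    ext i j
    fin_cases i <;> fin_cases j <;> simp [Matrix.mul_apply, Fin.sum_univ_two, h] <;> ring
  map_add' p q := by
    ext i j
    fin_cases i <;> fin_cases j <;> simp <;> ring
  commutes' t := by
    ext i j
    fin_cases i <;> fin_cases j <;> simp [Algebra.algebraMap_eq_smul_one]

theorem exists_spl {F : Type} [Field F] [NeZero (2 : F)] {a b : Fˣ} (h : ¬ Aniso a b) :
    ∃ f : Qt a b ≃ₐ[F] Matrix (Fin 2) (Fin 2) F, ∀ q, (f q).det = nrd q := by
  by_cases ha : ∃ α : F, α * α = a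
  · obtain ⟨α, hα⟩ := ha
    exact ⟨_, E6O.H68.det_spq two_ne_zero hα⟩
  have h0 : ∀ u v : F, u ^ 2 - a * v ^ 2 = 0 → u = 0 ∧ v = 0 := fun u v huv => by
    by_cases hv : v = 0
    · exact ⟨by simpa [hv] using huv, hv⟩
    · exact absurd ⟨u / v, by field_simp; linear_combination huv⟩ ha
  simp only [Aniso, not_forall] at h
  obtain ⟨q, hq, hq0⟩ := h
  rw [nrd] at hq
  have hn : q.imJ ^ 2 - a * q.imK ^ 2 ≠ 0 := fun hn => by
    obtain ⟨h1, h2⟩ := h0 _ _ hn
    obtain ⟨h3, h4⟩ := h0 q.re q.imI (by linear_combination hq + b * hn)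
    exact hq0 (QuaternionAlgebra.ext h3 h4 h1 h2)
  have hb : (b : F) = ((q.re * q.imJ - a * q.imI * q.imK) / (q.imJ ^ 2 - a * q.imK ^ 2)) ^ 2 -
      a * ((q.imI * q.imJ - q.re * q.imK) / (q.imJ ^ 2 - a * q.imK ^ 2)) ^ 2 := by
    field_simp
    linear_combination -(q.imJ ^ 2 - a * q.imK ^ 2) * hq
  refine ⟨spn hb, fun p => ?_⟩
  generalize (q.re * q.imJ - a * q.imI * q.imK) / (q.imJ ^ 2 - a * q.imK ^ 2) = x at hb
  generalize (q.imI * q.imJ - q.re * q.imK) / (q.imJ ^ 2 - a * q.imK ^ 2) = y at hb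
  refine (Matrix.det_fin_two_of _ _ _ _).trans ?_
  rw [nrd]
  linear_combination (p.imJ ^ 2 - a * p.imK ^ 2) * hb

variable {k K : Type} [Field k] [Field K] [NumberField K] [Algebra k K] {σ : K ≃ₐ[k] K}
  {a b c : kˣ} {g : Fin 3 → kˣ}

variable (σ a b g) in
/-- The special unitary group of degree three over the quaternion algebra. -/
def SUP : Subgroup (Matrix (Fin 3) (Fin 3) (Qt (up K a) (up K b)))ˣ where
  carrier := {m | IsU σ g g (m : Matrix (Fin 3) (Fin 3) (Qt (up K a) (up K b))) ∧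
    nu (m : Matrix (Fin 3) (Fin 3) (Qt (up K a) (up K b))) = 1}
  mul_mem' := by
    rintro m n ⟨h1, h3⟩ ⟨h4, h5⟩
    refine ⟨H64.isU_mul h1 h4, ?_⟩
    rw [Units.val_mul, H500.Rl.nu_mulG two_ne_zero, h3, h5, mul_one]
  one_mem' := ⟨H64.isU_one σ g, H64.nu_one⟩
  inv_mem' := by
    rintro m ⟨h1, h3⟩
    refine ⟨H64.isU_inv h1, ?_⟩
    have h := H500.Rl.nu_mulG two_ne_zero m.inv m.val
    rwa [m.inv_val, H64.nu_one, h3, mul_one, eq_comm] at h

omit [NumberField K] in
theorem re_tw (p q : Qt (up K a) (up K b)) (hσ : ∀ x, σ (σ x) = x) :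
    σ (tw σ p * q).re = (tw σ q * p).re := by
  simp [tw, hσ, up]
  ring

theorem su_split (hσ : ∀ x, σ (σ x) = x) (hσ1 : ∃ x, σ x ≠ x)
    (f : Qt (up K a) (up K b) ≃ₐ[K] Matrix (Fin 2) (Fin 2) K) (hf : ∀ q, (f q).det = nrd q)
    (han : ∀ v : Fin 3 → Qt (up K a) (up K b),
      ∑ i, (upG K g i : K) * (tw σ (v i) * v i).re = 0 → v = 0) : OnlyC (SUP σ a b g) := by
  let _ : StarRing K := starK σ hσ
  have hst : ∀ x : K, star x = σ x := fun _ => rfl
  obtain ⟨e, he⟩ : ∃ e : Fin 2 → Qt (up K a) (up K b), ∀ j, f (e j) = single j 0 1 :=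
    ⟨fun j => f.symm (single j 0 1), fun j => f.apply_symm_apply _⟩
  have he1 : ∀ w : Fin 2 → K, f (∑ r, w r • e r) = of fun r s => if s = 0 then w r else 0 := by
    intro w
    ext r s
    fin_cases r <;> fin_cases s <;> simp [he]
  have he2 : ∀ q l, q * e l = ∑ r, f q r l • e r := fun q l => f.injective (by
    rw [he1, map_mul, he]
    ext r s
    fin_cases s <;> simp)
  obtain ⟨γ, hγ⟩ : ∃ γ, ∀ j l, f γ j l = (tw σ (e j) * e l).re :=
    ⟨f.symm (of fun j l => (tw σ (e j) * e l).re), fun j l => by rw [f.apply_symm_apply]; rfl⟩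
  have hs : ∀ v w : Fin 2 → K, (tw σ (∑ r, v r • e r) * ∑ r, w r • e r).re =
      ∑ r, σ (v r) * ∑ s, f γ r s * w s := fun v w => by
    simp only [Fin.sum_univ_two, tw_add, tw_smul, hγ, add_mul, mul_add, smul_mul_assoc,
      mul_smul_comm, QuaternionAlgebra.re_add, QuaternionAlgebra.re_smul, smul_eq_mul]
    ring
  have h1 : ∀ j, e j = ∑ r, (1 : Matrix (Fin 2) (Fin 2) K) r j • e r := fun j => by
    rw [← map_one f, ← he2, one_mul]
  have key : ∀ q j l, ∑ r, σ (f q r j) * f γ r l = f (γ * tw σ q) j l := fun q j l => by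
    have h3 := hs (fun r => f q r j) fun r => (1 : Matrix (Fin 2) (Fin 2) K) r l
    have h4 := hs (fun r => (1 : Matrix (Fin 2) (Fin 2) K) r j) fun r => f (tw σ q) r l
    rw [← he2, ← h1, tw_mul, mul_assoc] at h3
    rw [← he2, ← h1, h3] at h4
    rw [map_mul, Matrix.mul_apply]
    simpa [one_apply, apply_ite σ] using h4
  obtain ⟨P, hP, hP'⟩ : ∃ P : Matrix (Fin 3) (Fin 3) (Qt (up K a) (up K b)) ≃+*
      Matrix (Fin (3 * 2)) (Fin (3 * 2)) K,
      (∀ m i j, P m (finProdFinEquiv i) (finProdFinEquiv j) = f (m i.1 j.1) i.2 j.2) ∧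
        ∀ m, (P m).det = nu m := by
    refine ⟨(f.toRingEquiv.mapMatrix.trans (compRingEquiv (Fin 3) (Fin 2) K)).trans
      (reindexAlgEquiv K K finProdFinEquiv).toRingEquiv, fun m i j => by simp, fun m => ?_⟩
    rw [E6O.H68.nu_eq_det f two_ne_zero hf]
    exact det_reindex_self finProdFinEquiv (H64.spl2 f.toAlgHom m)
  have hH : ∀ i j, P (diagonal (fun _ => γ) * dg (up K a) (up K b) (upG K g)) (finProdFinEquiv i)
      (finProdFinEquiv j) = if i.1 = j.1 then (upG K g i.1 : K) * f γ i.2 j.2 else 0 := by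
    intro i j
    rw [hP, dg, diagonal_mul_diagonal, diagonal_apply, ← Algebra.commutes, ← Algebra.smul_def]
    split_ifs
    · rw [map_smul]; rfl
    · rw [map_zero]; rfl
  generalize hD : P (diagonal (fun _ => γ) * dg (up K a) (up K b) (upG K g)) = H at hH
  have hA : IsAnisotropicForm H := by
    refine ⟨?_, fun v hv => ?_⟩
    · ext i j
      obtain ⟨i, rfl⟩ := finProdFinEquiv.surjective i
      obtain ⟨j, rfl⟩ := finProdFinEquiv.surjective j
      rw [conjTranspose_apply, hH, hH, hst]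
      by_cases h : i.1 = j.1
      · rw [if_pos h, if_pos h.symm, map_mul, hγ, hγ, re_tw _ _ hσ, h]
        exact congrArg (· * _) (σ.commutes _)
      · rw [if_neg h, if_neg (Ne.symm h), map_zero]
    · have h3 := han (fun i => ∑ r, v (finProdFinEquiv (i, r)) • e r) (by
        refine Eq.trans ?_ hv
        simp only [hs, dotProduct, mulVec, ← finProdFinEquiv.sum_comp, hH, Fintype.sum_prod_type,
          Pi.star_apply, hst, ite_mul, zero_mul, Finset.sum_ite_irrel, Finset.sum_const_zero,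
          Finset.sum_ite_eq, Finset.mem_univ, if_true]
        simp only [Finset.mul_sum]
        exact Finset.sum_congr rfl fun _ _ => Finset.sum_congr rfl fun _ _ =>
          Finset.sum_congr rfl fun _ _ => by ring)
      funext i
      obtain ⟨⟨i, r⟩, rfl⟩ := finProdFinEquiv.surjective i
      have h4 := congrArg (fun q => f q r 0) (congrFun h3 i)
      simpa only [he1, of_apply, if_true, Pi.zero_apply, map_zero, Matrix.zero_apply] using h4
  have hc : ∀ m, (P m)ᴴ * P (diagonal fun _ => γ) =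
      P (diagonal (fun _ => γ) * (m.map (qmap σ))ᴴ) := fun m => by
    ext i j
    obtain ⟨i, rfl⟩ := finProdFinEquiv.surjective i
    obtain ⟨j, rfl⟩ := finProdFinEquiv.surjective j
    rw [hP, diagonal_mul, Matrix.mul_apply]
    simp only [← finProdFinEquiv.sum_comp, conjTranspose_apply, hP, Fintype.sum_prod_type, hst,
      diagonal_apply]
    rw [Finset.sum_eq_single j.1 (fun l _ hl => by simp [hl]) (by simp)]
    simp only [if_true]
    exact key _ _ _
  have hu : IsUnit (P (diagonal fun _ => γ)) := by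
    have h3 := RP.isUnit_of_anis hA
    rw [← hD, map_mul, isUnit_iff_isUnit_det, det_mul] at h3
    exact (isUnit_iff_isUnit_det _).2 (isUnit_of_mul_isUnit_left h3)
  let f₁ : K →ₐ[K] Matrix (Fin 1) (Fin 1) K := Algebra.ofId _ _
  have hr : ∀ X : Matrix (Fin (3 * 2)) (Fin (3 * 2)) K, redNorm f₁ _ X = X.det := fun X => by
    rw [redNorm_eq, ← det_submatrix_equiv_self (Equiv.prodUnique _ (Fin 1)) X]
    congr 1
    ext i j
    exact (algebraMap_matrix_apply (R := K)).trans (if_pos (Subsingleton.elim i.2 j.2))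
  have hmem : ∀ m, m ∈ SUP σ a b g ↔ Units.mapEquiv P.toMulEquiv m ∈ SU f₁ H := by
    intro m
    rw [mem_su, hr]
    refine and_congr ?_ (by rw [← hP']; rfl)
    change _ ↔ (P m)ᴴ * H * P m = H
    rw [← hD, map_mul, ← Matrix.mul_assoc, hc, map_mul, Matrix.mul_assoc, Matrix.mul_assoc,
      hu.mul_right_inj, ← map_mul, ← map_mul, P.injective.eq_iff, IsU, Matrix.mul_assoc]
  refine NE.onlyC_equiv (((Units.mapEquiv P.toMulEquiv).subgroupMap _).trans
    (MulEquiv.subgroupCongr (K := SU f₁ H) ?_)) fun N _ =>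
      W.normal_all hσ1 one_pos (by simp) f₁ (by norm_num) H hA N
  ext m
  obtain ⟨m, rfl⟩ := (Units.mapEquiv P.toMulEquiv).surjective m
  rw [← hmem]
  exact Subgroup.mem_map_iff_mem (Units.mapEquiv P.toMulEquiv).injective

theorem su_only (h2 : Module.finrank k K = 2) (hσ : σ ≠ 1)
    (hanis : ∀ x : AlbL K a b c, herm σ g x x = 0 → x = 0) : OnlyC (SUP σ a b g) := by
  by_cases hQ : Aniso (up K a) (up K b)
  · exact su_normal h2 hσ two_ne_zero hQ hanis
  obtain ⟨f, hf⟩ := exists_spl hQ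
  refine su_split (sigma_sigma_su h2 σ) (exists_ne_su hσ) f hf fun v e => ?_
  have hu : ∀ i, σ (upG K g i : K) = (upG K g i : K) := fun i => σ.commutes _
  have h1 := hanis ⟨0, 0, 0, ⟨0, (upG K g 0 : K) • v 0⟩, ⟨0, (upG K g 1 : K) • v 1⟩,
      ⟨0, (upG K g 2 : K) • v 2⟩⟩ (by
    simp only [Fin.sum_univ_three, tw, QuaternionAlgebra.re_mul, QuaternionAlgebra.re_star,
      QuaternionAlgebra.imI_star, QuaternionAlgebra.imJ_star, QuaternionAlgebra.imK_star,
      re_qmap, imI_qmap, imJ_qmap, imK_qmap] at e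
    simp only [herm, Alb.tf, Alb.wt, bil_eq, amap, omap, fst_smul, snd_smul,
      QuaternionAlgebra.re_smul, QuaternionAlgebra.imI_smul, QuaternionAlgebra.imJ_smul,
      QuaternionAlgebra.imK_smul, smul_eq_mul, re_qmap, imI_qmap, imJ_qmap, imK_qmap, map_mul,
      map_zero, mul_zero, QuaternionAlgebra.re_zero, QuaternionAlgebra.imI_zero,
      QuaternionAlgebra.imJ_zero, QuaternionAlgebra.imK_zero, hu]
    linear_combination (-2 * (up K c : K) * (upG K g 0 : K) * (upG K g 1 : K) *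
      (upG K g 2 : K)) * e)
  funext i
  fin_cases i
  · exact (smul_eq_zero.1 (congrArg (·.x1.snd) h1)).resolve_left (upG K g 0).ne_zero
  · exact (smul_eq_zero.1 (congrArg (·.x2.snd) h1)).resolve_left (upG K g 1).ne_zero
  · exact (smul_eq_zero.1 (congrArg (·.x3.snd) h1)).resolve_left (upG K g 2).ne_zero

end Vale.Agent.P011.E6.NF
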