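import Vale.Agent.P011NF.Spl
import Vale.Agent.P011ND.Qc

/-!
Groups of type `²E₆` with trivial Tits class: a normal subgroup with the automorphisms of the
octonion algebra is everything.
-/

open Matrix

namespace Vale.Agent.P011.E6.NF

open Vale.Agent.P011.MPQ Vale.Agent.P011.D4 Vale.Agent.P011.D4.Oct Vale.Agent.P011.NM Alb
open Vale.Agent.P011.H500.Rl (nu_mulG)

variable {k K : Type} [Field k] [NumberField k] [Field K] [NumberField K] [Algebra k K]
  {σ : K ≃ₐ[k] K} {a b c a' b' c' : kˣ} {g g' : Fin 3 → kˣ}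

/-- The homomorphism from the special unitary group of degree three, in any coordinates. -/
noncomputable def coHom {ψ : AlbL K a' b' c' ≃ₗ[K] AlbL K a b c} (h : IsCoord σ g g' ψ) :
    SUP σ a' b' g' →* GE σ a b c g :=
  h.conj.toMonoidHom.comp
    { toFun m := ⟨H64.actL two_ne_zero m.1 1, act_mem_GE two_ne_zero m.2.1 m.2.2⟩
      map_one' := Subtype.ext (LinearEquiv.ext act_one_one)
      map_mul' m n := Subtype.ext (LinearEquiv.ext fun x =>
        ((act_act m.1 n.1 1 1 x).trans (by rw [mul_one]; rfl)).symm) }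

omit [NumberField k] in
theorem coHom_apply {ψ : AlbL K a' b' c' ≃ₗ[K] AlbL K a b c} (h : IsCoord σ g g' ψ)
    (m : SUP σ a' b' g') (x : AlbL K a' b' c') : (coHom h m).1 (ψ x) = ψ (act m.1 1 x) :=
  congrArg (fun y => ψ (act m.1 1 y)) (ψ.symm_apply_apply x)

omit [NumberField k] in
theorem eq_coHom {ψ : AlbL K a' b' c' ≃ₗ[K] AlbL K a b c} (h : IsCoord σ g g' ψ)
    (m : SUP σ a' b' g') {φ : AlbL K a b c ≃ₗ[K] AlbL K a b c}
    (hφ : ∀ x, φ (ψ x) = ψ (act m.1 1 x)) : φ = (coHom h m).1 :=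
  LinearEquiv.ext (ψ.surjective.forall.2 fun y => by rw [hφ, coHom_apply])

theorem scal_of_center (habk : Aniso a b)
    {M : Matrix (Fin 3) (Fin 3) (Qt (up K a) (up K b))}
    (hM : ∀ w : (Matrix (Fin 3) (Fin 3) (Qt (up K a) (up K b)))ˣ,
      IsU σ g g (w : Matrix (Fin 3) (Fin 3) (Qt (up K a) (up K b))) →
      nu (w : Matrix (Fin 3) (Fin 3) (Qt (up K a) (up K b))) = 1 →
      M * (w : Matrix (Fin 3) (Fin 3) (Qt (up K a) (up K b))) = w * M) :
    ∃ t : K, M = t • 1 := by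
  have h2 : (2 : K) ≠ 0 := two_ne_zero
  have n1 : nrd (1 : Qt (up K a) (up K b)) = 1 := by simp [nrd]
  have nm1 : nrd (-1 : Qt (up K a) (up K b)) = 1 := by simp [nrd]
  have r1 : qmap σ (1 : Qt (up K a) (up K b)) = 1 := qmap_one σ
  have rm1 : qmap σ (-1 : Qt (up K a) (up K b)) = -1 := by rw [qmap_neg, qmap_one]
  have hdd : ∀ {p q : Qt (up K a) (up K b)} (hp : nrd p = 1) (hq : nrd q = 1)
      (_ : qmap σ p = p) (_ : qmap σ q = q) (i j : Fin 3),
      M i j * (![p, q, 1] : Fin 3 → Qt (up K a) (up K b)) j =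
        (![p, q, 1] : Fin 3 → Qt (up K a) (up K b)) i * M i j := by
    intro p q hp hq hp' hq' i j
    have h := hM (dd p q hp hq) (isU_dd hp hq hp' hq') (nu_dd hp hq)
    have h1 := congrFun (congrFun h i) j
    change (M * diagonal ![p, q, 1]) i j = (diagonal ![p, q, 1] * M) i j at h1
    rwa [mul_diagonal, diagonal_mul] at h1
  have hz : ∀ {x : Qt (up K a) (up K b)}, x = -x → x = 0 := by
    intro x hx
    have h3 : (2 : K) • x = 0 := by
      rw [two_smul]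
      nth_rewrite 2 [hx]
      rw [add_neg_cancel]
    exact (smul_eq_zero.1 h3).resolve_left h2
  have h01 : M 0 1 = 0 := hz (by
    have h := hdd nm1 n1 rm1 r1 0 1
    change M 0 1 * 1 = -1 * M 0 1 at h
    rwa [mul_one, neg_one_mul] at h)
  have h02 : M 0 2 = 0 := hz (by
    have h := hdd nm1 n1 rm1 r1 0 2
    change M 0 2 * 1 = -1 * M 0 2 at h
    rwa [mul_one, neg_one_mul] at h)
  have h10 : M 1 0 = 0 := hz (by
    have h := hdd nm1 n1 rm1 r1 1 0
    change M 1 0 * -1 = 1 * M 1 0 at h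
    rw [mul_neg_one, one_mul] at h
    exact h.symm)
  have h20 : M 2 0 = 0 := hz (by
    have h := hdd nm1 n1 rm1 r1 2 0
    change M 2 0 * -1 = 1 * M 2 0 at h
    rw [mul_neg_one, one_mul] at h
    exact h.symm)
  have h12 : M 1 2 = 0 := hz (by
    have h := hdd n1 nm1 r1 rm1 1 2
    change M 1 2 * 1 = -1 * M 1 2 at h
    rwa [mul_one, neg_one_mul] at h)
  have h21 : M 2 1 = 0 := hz (by
    have h := hdd n1 nm1 r1 rm1 2 1
    change M 2 1 * -1 = 1 * M 2 1 at h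
    rw [mul_neg_one, one_mul] at h
    exact h.symm)
  have h00 : M 0 0 = algebraMap K (Qt (up K a) (up K b)) (M 0 0).re := by
    apply scal_of_comm habk
    intro q hq
    exact hdd (p := qup K q) (by rw [nrd_qup, hq, map_one]) n1 (qmap_qup σ q) r1 0 0
  have h11 : M 1 1 = M 0 0 := by
    obtain ⟨α, β, γ, δ, h, hγ, hU⟩ := exists_v01 σ g
    have h3 := congrFun (congrFun (hM _ (hU a b) (nu_kq (det_v01 h))) 1) 0
    rw [Matrix.mul_apply, Matrix.mul_apply, Fin.sum_univ_three, Fin.sum_univ_three, h10, h12,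
      h20] at h3
    change 0 * _ + M 1 1 * algebraMap K _ γ + 0 * _ = algebraMap K _ γ * M 0 0 + _ * 0 + _ * 0 at h3
    simp only [zero_mul, mul_zero, add_zero, zero_add] at h3
    rw [← Algebra.commutes, ← Algebra.smul_def, ← Algebra.smul_def] at h3
    exact smul_right_injective _ hγ h3
  have h22 : M 2 2 = M 1 1 := by
    obtain ⟨α, β, γ, δ, h, hγ, hU⟩ := exists_v12 σ g
    have h3 := congrFun (congrFun (hM _ (hU a b) (nu_kq (det_v12 h))) 2) 1
    rw [Matrix.mul_apply, Matrix.mul_apply, Fin.sum_univ_three, Fin.sum_univ_three, h21, h20,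
      h01] at h3
    change 0 * _ + 0 * _ + M 2 2 * algebraMap K _ γ = _ * 0 + algebraMap K _ γ * M 1 1 + _ * 0 at h3
    simp only [zero_mul, mul_zero, add_zero, zero_add] at h3
    rw [← Algebra.commutes, ← Algebra.smul_def, ← Algebra.smul_def] at h3
    exact smul_right_injective _ hγ h3
  refine ⟨(M 0 0).re, ?_⟩
  have he : ∀ t : K, t • (1 : Qt (up K a) (up K b)) = algebraMap K _ t := fun t => by
    rw [Algebra.smul_def, mul_one]
  apply Matrix.ext
  intro i j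
  rw [Matrix.smul_apply]
  fin_cases i <;> fin_cases j
  · change M 0 0 = (M 0 0).re • (1 : Qt (up K a) (up K b))
    rw [he, ← h00]
  · exact h01.trans (smul_zero _).symm
  · exact h02.trans (smul_zero _).symm
  · exact h10.trans (smul_zero _).symm
  · change M 1 1 = (M 0 0).re • (1 : Qt (up K a) (up K b))
    rw [he, ← h00, h11]
  · exact h12.trans (smul_zero _).symm
  · exact h20.trans (smul_zero _).symm
  · exact h21.trans (smul_zero _).symm
  · change M 2 2 = (M 0 0).re • (1 : Qt (up K a) (up K b))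
    rw [he, ← h00, h22, h11]

omit [NumberField k] in
theorem good_act {N : Subgroup (AlbL K a b c ≃ₗ[K] AlbL K a b c)} {g₂ : Fin 3 → kˣ}
    {Ψ : AlbL K a' b' c' ≃ₗ[K] AlbL K a b c}
    (m : (Matrix (Fin 3) (Fin 3) (Qt (up K a') (up K b')))ˣ) (κ : Qt (up K a') (up K b'))
    (hm : IsU σ g' g₂ (m : Matrix (Fin 3) (Fin 3) (Qt (up K a') (up K b'))))
    {Ψ₂ : AlbL K a' b' c' ≃ₗ[K] AlbL K a b c} (h₂ : ∀ x, Ψ₂ x = Ψ (Alb.act m κ x)) :
    GoodC σ g₂ Ψ₂ N ↔ GoodC σ g' Ψ N := by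
  have hnu : ∀ w : (Matrix (Fin 3) (Fin 3) (Qt (up K a') (up K b')))ˣ,
      nu (w : Matrix (Fin 3) (Fin 3) (Qt (up K a') (up K b'))) = 1 →
      nu ((m * w * m⁻¹ : (Matrix (Fin 3) (Fin 3) (Qt (up K a') (up K b')))ˣ) :
        Matrix (Fin 3) (Fin 3) (Qt (up K a') (up K b'))) = 1 ∧
      nu ((m⁻¹ * w * m : (Matrix (Fin 3) (Fin 3) (Qt (up K a') (up K b')))ˣ) :
        Matrix (Fin 3) (Fin 3) (Qt (up K a') (up K b'))) = 1 := by
    intro w hw
    have h1 := nu_mulG two_ne_zero (m : Matrix (Fin 3) (Fin 3) (Qt (up K a') (up K b')))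
      ((m⁻¹ : (Matrix (Fin 3) (Fin 3) (Qt (up K a') (up K b')))ˣ) :
        Matrix (Fin 3) (Fin 3) (Qt (up K a') (up K b')))
    rw [H64.units_mul_inv, nu_one] at h1
    constructor
    · rw [Units.val_mul, Units.val_mul, nu_mulG two_ne_zero, nu_mulG two_ne_zero, hw, mul_one, ← h1]
    · rw [Units.val_mul, Units.val_mul, nu_mulG two_ne_zero, nu_mulG two_ne_zero, hw, mul_one, mul_comm, ← h1]
  constructor
  · intro hg w hw hw' φ hφ
    refine hg (m⁻¹ * w * m) ?_ (hnu w hw').2 φ fun x => ?_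
    · exact H64.isU_mul (H64.isU_mul (H64.isU_inv hm) hw) hm
    · rw [h₂, hφ, h₂, act_act, act_act, one_mul, mul_one, mul_assoc, mul_inv_cancel_left]
  · intro hg w hw hw' φ hφ
    refine hg (m * w * m⁻¹) ?_ (hnu w hw').1 φ fun y => ?_
    · exact H64.isU_mul (H64.isU_mul hm hw) (H64.isU_inv hm)
    · obtain ⟨x, hx⟩ : ∃ x, act m κ x = y := by
        refine ⟨Ψ₂.symm (Ψ y), ?_⟩
        apply Ψ.injective
        rw [← h₂, LinearEquiv.apply_symm_apply]
      rw [← hx, ← h₂, hφ, h₂, act_act, act_act, one_mul, mul_one, inv_mul_cancel_right]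

theorem hit_of_aut (hfix : ∀ t : K, σ t = t → ∃ s : k, algebraMap k K s = t)
    (hdivk : Division a b c)
    {N : Subgroup (AlbL K a b c ≃ₗ[K] AlbL K a b c)}
    (hN : ∀ φ ∈ GE σ a b c g, ∀ n ∈ N, φ * n * φ⁻¹ ∈ N)
    {φ : AlbL K a b c ≃ₗ[K] AlbL K a b c} (hφN : φ ∈ N)
    {t : OctL K a b c ≃ₗ[K] OctL K a b c} (ht : ∀ x y, t (x * y) = t x * t y)
    (htσ : ∀ x, t (omap σ x) = omap σ (t x)) (hφt : ∀ x, φ x = Alb.omapA t x)
    (ht1 : ∃ x, t x ≠ x) : Hit σ g N := by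
  obtain ⟨z, hz, htz⟩ := exists_moved hdivk ht ht1
  obtain ⟨z', hz'⟩ : ∃ z' : Oct a b c, oup K z' = t (oup K z) := by
    have h1 : amap σ (⟨0, 0, 0, t (oup K z), 0, 0⟩ : AlbL K a b c) =
        ⟨0, 0, 0, t (oup K z), 0, 0⟩ := by
      simp only [amap, map_zero, ← htσ, omap_oup, omap_zero]
    obtain ⟨y, hy⟩ := Alb.exists_aup σ hfix h1
    exact ⟨y.x1, congrArg Alb.x1 hy⟩
  have hz1 : norm z' = 1 := by
    apply (algebraMap k K).injective
    rw [← norm_oup, hz', hom_norm ht, norm_oup, hz]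
  obtain ⟨a', b', c', i, j, l, hT, ⟨x, hx⟩, ⟨y, hy⟩⟩ := H369.exists_trip_of_two hdivk z z'
  have hTb := hT.triple.toBasic
  have hxn : nrd (qup K x) = 1 := by
    rw [nrd_qup, ← hTb.norm_qemb, ← hx, hz, map_one]
  have hyn : nrd (qup K y) = 1 := by
    rw [nrd_qup, ← hTb.norm_qemb, ← hy, hz1, map_one]
  have hreal : ∀ w : Qt a' b', qmap σ (qup K w) = qup K w := fun w => qmap_qup σ w
  -- the elements
  have hex : ∀ (q : Qt a' b') (hq : nrd (qup K q) = 1), ∃ D ∈ GE σ a b c g,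
      ∀ w, D (tripA K hT w) = tripA K hT (Alb.act (H691.dz (qup K q) hq) 1 w) := by
    intro q hq
    have hs : nrd (star (qup K q)) = 1 := by rw [nrd_star', hq]
    obtain ⟨χ, hχ, hχ'⟩ := exists_actU (σ := σ) (c := c') (g := g)
      (H691.dz (qup K q) hq) (isU_dd hq hs (hreal q) (by rw [qmap_star, hreal]))
      (nu_dd hq hs)
    refine ⟨_, (isCoord_tripA (g := g) σ hT).conj_mem hχ, fun w => ?_⟩
    change tripA K hT (χ ((tripA K hT).symm (tripA K hT w))) = _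
    rw [LinearEquiv.symm_apply_apply, hχ']
  obtain ⟨D, hD, hDw⟩ := hex x hxn
  obtain ⟨D', hD', hDw'⟩ := hex y hyn
  have hTx : tripO K hT (H691.oq (qup K x)) = oup K z := by rw [tripO_oq, ← hx]
  have hTy : tripO K hT (H691.oq (qup K y)) = oup K z' := by rw [tripO_oq, ← hy]
  have hconj : φ * D * φ⁻¹ = D' := by
    rw [mul_inv_eq_iff_eq_mul]
    apply LinearEquiv.ext
    intro X
    rw [LinearEquiv.mul_apply, LinearEquiv.mul_apply, conj_dz hT hxn hDw, conj_dz hT hyn hDw',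
      hφt, hφt, hTx, hTy]
    simp only [Alb.omapA, ht, hom_star ht, hz']
  have hmem : D' * D⁻¹ ∈ N := by
    have h1 := N.mul_mem hφN (hN D hD _ (N.inv_mem hφN))
    rwa [← mul_assoc, ← mul_assoc, hconj] at h1
  have h1 : nrd (qup K y * star (qup K x)) = 1 := by
    rw [nrd_mul, nrd_star', hyn, hxn, one_mul]
  have h2 : nrd (star (qup K y) * qup K x) = 1 := by
    rw [nrd_mul, nrd_star', hyn, hxn, one_mul]
  refine ⟨a', b', c', g, tripA K hT, ?_, dd _ _ h1 h2, isU_dd h1 h2 ?_ ?_, nu_dd h1 h2, ?_,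
    D' * D⁻¹, hmem, fun w => ?_⟩
  · exact Reach.trip Reach.refl hT _ fun x => tripA_apply hT x
  · rw [qmap_mul, qmap_star, hreal, hreal]
  · rw [qmap_mul, qmap_star, hreal, hreal]
  · intro s hs
    have e2 : (1 : Qt (up K a') (up K b')) = s • 1 := by
      have h3 := congrFun (congrFun hs 2) 2
      rw [Matrix.smul_apply, one_apply_eq] at h3
      exact h3
    have e0 : qup K y * star (qup K x) = s • 1 := by
      have h3 := congrFun (congrFun hs 0) 0
      rw [Matrix.smul_apply, one_apply_eq] at h3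
      exact h3
    rw [← e2] at e0
    apply htz
    rw [← hz', hy, hx]
    congr 2
    apply Alb.qup_injective (K := K)
    calc qup K y = qup K y * (star (qup K x) * qup K x) := by
          rw [H691.star_mul_self' hxn, mul_one]
      _ = qup K x := by rw [← mul_assoc, e0, one_mul]
  · rw [← dz_mul_inv hyn hxn h1 h2, ← mul_one (1 : Qt (up K a') (up K b')), ← act_act,
      LinearEquiv.mul_apply, ← hDw']
    congr 1
    apply D.injective
    rw [hDw, act_act, mul_one, mul_inv_cancel, act_one_one, ← LinearEquiv.mul_apply, mul_inv_cancel]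
    rfl

variable (h2 : Module.finrank k K = 2) (hσ : σ ≠ 1)
  (hanis : ∀ x : AlbL K a b c, herm σ g x x = 0 → x = 0)

include h2 hσ hanis

theorem good_of_ne {N : Subgroup (GE σ a b c g)} (hN : N.Normal)
    {ψ : AlbL K a' b' c' ≃ₗ[K] AlbL K a b c} (hψ : IsCoord σ g g' ψ)
    {m₀ : (Matrix (Fin 3) (Fin 3) (Qt (up K a') (up K b')))ˣ}
    (hm₀ : IsU σ g' g' (m₀ : Matrix (Fin 3) (Fin 3) (Qt (up K a') (up K b'))))
    (hn₀ : nu (m₀ : Matrix (Fin 3) (Fin 3) (Qt (up K a') (up K b'))) = 1)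
    (hne : ∀ t : K, (m₀ : Matrix (Fin 3) (Fin 3) (Qt (up K a') (up K b'))) ≠ t • 1)
    {φ₀ : AlbL K a b c ≃ₗ[K] AlbL K a b c} (hφ₀ : φ₀ ∈ N.map (GE σ a b c g).subtype)
    (hφψ : ∀ x, φ₀ (ψ x) = ψ (Alb.act m₀ 1 x)) :
    GoodC σ g' ψ (N.map (GE σ a b c g).subtype) := by
  have ha := H64.anis_coord hψ hanis
  intro m hm hn φ hφ
  obtain ⟨n, hn0, rfl⟩ := hφ₀
  rcases su_only h2 hσ ha _ (hN.comap (coHom hψ)) with h | h
  · have e := eq_coHom hψ ⟨m₀, hm₀, hn₀⟩ (φ := n.1) hφψ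
    rw [Subtype.ext e] at hn0
    obtain ⟨t, ht⟩ := scal_of_center (σ := σ) (g := g') (M := m₀.1) (div_of ha).aniso
      fun w hw hw' => congrArg (fun u : SUP σ a' b' g' => u.1.1)
        (Subgroup.mem_center_iff.1 (h hn0) ⟨w, hw, hw'⟩).symm
    exact absurd ht (hne t)
  · rw [eq_coHom hψ ⟨m, hm, hn⟩ hφ]
    exact ⟨coHom hψ ⟨m, hm, hn⟩, h.ge (Subgroup.mem_top (⟨m, hm, hn⟩ : SUP σ a' b' g')), rfl⟩

theorem good_trip {N : Subgroup (GE σ a b c g)} (hN : N.Normal)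
    {Ψ : AlbL K a' b' c' ≃ₗ[K] AlbL K a b c} (hΨ : IsCoord σ g g' Ψ)
    {a₂ b₂ c₂ : kˣ} {i j l : Oct a' b' c'}
    (ht : Trip a₂ b₂ c₂ i j l) {Ψ₂ : AlbL K a₂ b₂ c₂ ≃ₗ[K] AlbL K a b c}
    (h₂ : ∀ x, Ψ₂ x = Ψ (Alb.omapA (emb (oup K i) (oup K j) (oup K l)) x))
    (hΨ₂ : IsCoord σ g g' Ψ₂) :
    GoodC σ g' Ψ₂ (N.map (GE σ a b c g).subtype) ↔
      GoodC σ g' Ψ (N.map (GE σ a b c g).subtype) := by
  obtain ⟨α, β, γ, δ, h, hγ, hU⟩ := exists_v01 σ g'
  have hT : ∀ x : AlbL K a₂ b₂ c₂, Alb.omapA (emb (oup K i) (oup K j) (oup K l))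
      (act (kq (up K a₂) (up K b₂) (v01 α β γ δ h)) 1 x) =
      act (kq (up K a') (up K b') (v01 α β γ δ h)) 1
        (Alb.omapA (emb (oup K i) (oup K j) (oup K l)) x) := by
    intro x
    rw [← tripA_apply ht, ← tripA_apply ht]
    exact omapA_v01 (tripO_mul ht) h x
  constructor
  · intro hg
    have hφ := coHom_apply hΨ₂
      ⟨kq (up K a₂) (up K b₂) (v01 α β γ δ h), hU a₂ b₂, nu_kq (det_v01 h)⟩
    refine good_of_ne h2 hσ hanis hN hΨ (hU a' b') (nu_kq (det_v01 h)) (v01_ne h hγ)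
      (hg _ (hU a₂ b₂) (nu_kq (det_v01 h)) _ hφ) fun y => ?_
    obtain ⟨x, hx⟩ := (tripA K ht).surjective y
    rw [tripA_apply] at hx
    rw [← hx, ← h₂, hφ, h₂, hT]
  · intro hg
    have hφ := coHom_apply hΨ
      ⟨kq (up K a') (up K b') (v01 α β γ δ h), hU a' b', nu_kq (det_v01 h)⟩
    refine good_of_ne h2 hσ hanis hN hΨ₂ (hU a₂ b₂) (nu_kq (det_v01 h)) (v01_ne h hγ)
      (hg _ (hU a' b') (nu_kq (det_v01 h)) _ hφ) fun y => ?_
    rw [h₂, hφ, h₂, hT]

theorem good_iff {N : Subgroup (GE σ a b c g)} (hN : N.Normal)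
    {ψ : AlbL K a' b' c' ≃ₗ[K] AlbL K a b c} (h : Reach σ g g' ψ) :
    GoodC σ g' ψ (N.map (GE σ a b c g).subtype) ↔
      GoodC σ g (LinearEquiv.refl K (AlbL K a b c)) (N.map (GE σ a b c g).subtype) := by
  induction h with
  | refl => exact Iff.rfl
  | trip h ht Ψ₂ h₂ ih =>
    exact (good_trip h2 hσ hanis hN (coord h) ht h₂ (coord (Reach.trip h ht Ψ₂ h₂))).trans ih
  | act h m κ hm hmσ hκσ hκ Ψ₂ h₂ ih => exact (good_act m κ hm h₂).trans ih

theorem top_of_aut (hpos : ∀ w : K →+* ℝ, ∀ i, 0 < w (algebraMap k K (g i)))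
    {N : Subgroup (GE σ a b c g)} (hN : N.Normal) (hf : ∀ f : AutC a b c,
      (⟨Rl.rlin K (Rl.autR a b c f), Rl.rlin_mem σ g _⟩ : GE σ a b c g) ∈ N) : N = ⊤ := by
  obtain ⟨δ, hδ, hδ0⟩ := exists_delta8 h2 hσ
  have hc : ∀ φ ∈ GE σ a b c g, ∀ n ∈ N.map (GE σ a b c g).subtype,
      φ * n * φ⁻¹ ∈ N.map (GE σ a b c g).subtype := by
    rintro φ hφ _ ⟨n, hn, rfl⟩
    exact ⟨_, hN.conj_mem n hn ⟨φ, hφ⟩, rfl⟩
  obtain ⟨a', b', c', g', ψ, hψ, m, hm, hn, hne, φ, hφN, hφ⟩ := hit_of_aut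
    (Five.exists_fix h2 hδ hδ0) (div_of hanis) hc ⟨_, hf (P011ND.tau a b c).1, rfl⟩
    (t := Em.extE K (P011ND.tau a b c).1.1) (Em.extL_mul (P011ND.tau a b c).1.2)
    (fun x => (Rl.omap_extE σ _ x).symm) (fun _ => rfl) ⟨oup K gj, fun h => by
      rw [Em.extE_oup] at h
      have := congrArg (·.fst.imJ) (oup_injective h)
      norm_num [P011ND.tau_apply, P011ND.ci, gj] at this⟩
  have h3 := (good_iff h2 hσ hanis hN hψ).1 (good_of_ne h2 hσ hanis hN (coord hψ) hm hn hne hφN hφ)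
  have h := core h2 hσ hanis (Subgroup.map_subtype_le N) hc
    (fun _ _ _ _ _ hψ' => (good_iff h2 hσ hanis hN hψ').2 h3) fun w _ => hpos w
  refine eq_top_iff.2 fun φ _ => ?_
  obtain ⟨n, hn, e⟩ := h.ge φ.2
  exact Subtype.ext e ▸ hn

omit h2 hσ hanis

/-- A noncentral normal subgroup contains the automorphisms of the octonion algebra. -/
def MeetG : Prop :=
  ∀ {k K : Type} [Field k] [NumberField k] [Field K] [NumberField K] [Algebra k K]
    {σ : K ≃ₐ[k] K} {a b c : kˣ} {g : Fin 3 → kˣ}, Module.finrank k K = 2 → σ ≠ 1 →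
    Division a b c → (∀ x : AlbL K a b c, herm σ g x x = 0 → x = 0) →
    ∀ N : Subgroup (GE σ a b c g), N.Normal → ¬ N ≤ Subgroup.center _ → ∀ f : AutC a b c,
      (⟨Rl.rlin K (Rl.autR a b c f), Rl.rlin_mem σ g _⟩ : GE σ a b c g) ∈ N

theorem ge_only (H : MeetG) (h2 : Module.finrank k K = 2) (hσ : σ ≠ 1)
    (hanis : ∀ x : AlbL K a b c, herm σ g x x = 0 → x = 0) : OnlyC (GE σ a b c g) := by
  obtain ⟨δ, hδ, hδ0⟩ := exists_delta_tw h2 hσ
  obtain ⟨t, g', ht, hp⟩ := exists_tw (sigma_sigma h2 hσ) (Five.exists_fix h2 hδ hδ0) hδ hδ0 g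
  have ha := anis_twist t ht hanis
  exact NE.onlyC_equiv (twistE t ht) fun N hN => or_iff_not_imp_left.2 fun h =>
    top_of_aut h2 hσ ha hp hN (H h2 hσ (div_of ha) ha N hN h)

end Vale.Agent.P011.E6.NF
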